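import Vale.Agent.P269C.Defs
import Vale.Agent.P272.K.C2.Wirt

/-!
# P269, block C, Poincare-Lelong: pointwise formulas
-/

set_option autoImplicit false
set_option linter.all false

noncomputable section

namespace Vale.Agent.P269CL

open Set Filter MvPolynomial Vale.Agent.P272.K Vale.Agent.P272.K.C2 Vale.Agent.P269C
open scoped Topology ContDiff

variable {D : ℕ}

/-- The first Chern form of a line bundle in which a holomorphic frame has squared length `h`. -/
abbrev c1 (h : Cm D → ℝ) (z : Cm D) : Po D := chern (fun a => !![(h a : ℂ)]) 1 z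

theorem hom_one (M : Fin D → Fin D → ℂ) :
    homogeneousComponent 1 (1 - ∑ i, ∑ j, C (M i j) * X (i, j) : Po D) =
      -∑ i, ∑ j, C (M i j) * X (i, j) := by
  have h1 : (∑ i, ∑ j, C (M i j) * X (i, j) : Po D).IsHomogeneous 1 := by
    refine IsHomogeneous.sum _ _ _ fun i _ => IsHomogeneous.sum _ _ _ fun j _ => ?_
    exact isHomogeneous_C_mul_X _ _
  rw [map_sub, homogeneousComponent_of_mem h1, if_pos rfl,
    homogeneousComponent_of_mem (isHomogeneous_one _ _), if_neg (by norm_num), zero_sub]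

theorem c1_raw (h : Cm D → ℝ) (z : Cm D) : c1 h z = -∑ i, ∑ j,
    C (dzb j (fun y => dz i (fun x => (h x : ℂ)) y * (h y : ℂ)⁻¹) z) * X (i, j) := by
  rw [← hom_one]
  unfold c1 chern
  congr 1
  rw [Matrix.det_unique]
  simp [Matrix.mul_apply, Matrix.inv_subsingleton]

theorem c1_eq {h : Cm D → ℝ} {z : Cm D} (hh : ContDiffAt ℝ 2 h z) (h0 : 0 < h z) :
    c1 h z = -∑ i, ∑ j, C (cHess (fun y => Real.log (h y)) z i j) * X (i, j) := by
  rw [c1_raw]
  refine congrArg Neg.neg (Finset.sum_congr rfl fun i _ => Finset.sum_congr rfl fun j _ => ?_)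
  have hl : ContDiffAt ℝ 2 (fun y => Real.log (h y)) z := hh.log h0.ne'
  rw [cHess_apply, dz_dzb_comm i j (contDiffAt_ofReal hl)]
  refine congrArg (fun c => C c * X (i, j)) (dzb_congr j ?_)
  filter_upwards [eventually_contDiffAt (m := 2) hh,
    hh.continuousAt.eventually (lt_mem_nhds h0)] with y h1 h2
  rw [dz_comp_real i (Real.hasDerivAt_log h2.ne') (h1.differentiableAt (by norm_num)), mul_comm]
  push_cast
  rfl

theorem c1_congr {h h' : Cm D → ℝ} {z : Cm D} (e : h =ᶠ[𝓝 z] h') : c1 h z = c1 h' z := by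
  rw [c1_raw, c1_raw]
  refine congrArg Neg.neg (Finset.sum_congr rfl fun i _ => Finset.sum_congr rfl fun j _ => ?_)
  refine congrArg (fun c => C c * X (i, j)) (dzb_congr j ?_)
  have e' : (fun x => (h x : ℂ)) =ᶠ[𝓝 z] fun x => (h' x : ℂ) := by
    filter_upwards [e] with y hy
    rw [hy]
  filter_upwards [e, dz_eventuallyEq i e'] with y h1 h2
  rw [h1, h2]

theorem dz_coord (i k : Fin D) (z : Cm D) :
    dz i (fun y : Cm D => y k) z = if i = k then 1 else 0 := by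
  have h : HasFDerivAt (fun y : Cm D => y k)
      (ContinuousLinearMap.proj (R := ℝ) (φ := fun _ : Fin D => ℂ) k) z :=
    (ContinuousLinearMap.proj (R := ℝ) (φ := fun _ : Fin D => ℂ) k).hasFDerivAt
  rw [dz, h.fderiv]
  by_cases e : i = k
  · subst e
    simp
  · simp [e, Pi.single_eq_of_ne' e]

theorem dzb_coord (i k : Fin D) (z : Cm D) : dzb i (fun y : Cm D => y k) z = 0 := by
  have h : HasFDerivAt (fun y : Cm D => y k)
      (ContinuousLinearMap.proj (R := ℝ) (φ := fun _ : Fin D => ℂ) k) z :=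
    (ContinuousLinearMap.proj (R := ℝ) (φ := fun _ : Fin D => ℂ) k).hasFDerivAt
  rw [dzb, h.fderiv]
  by_cases e : i = k
  · subst e
    simp
  · simp [Pi.single_eq_of_ne' e]

theorem diff_coord (k : Fin D) (z : Cm D) : DifferentiableAt ℝ (fun y : Cm D => y k) z :=
  (ContinuousLinearMap.proj (R := ℝ) (φ := fun _ : Fin D => ℂ) k).differentiableAt

theorem dz_cc (i k : Fin D) (z : Cm D) : dz i (fun y : Cm D => (starRingEnd ℂ) (y k)) z = 0 := by
  rw [dz_conj i (diff_coord k z), dzb_coord, map_zero]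

theorem dzb_cc (i k : Fin D) (z : Cm D) :
    dzb i (fun y : Cm D => (starRingEnd ℂ) (y k)) z = if i = k then 1 else 0 := by
  rw [dzb_conj i (diff_coord k z), dz_coord]
  split_ifs <;> simp

/-- `∂_i (|w|² θ) = conj w * mu` -/
def mu (k : Fin D) (θ : Cm D → ℝ) (i : Fin D) (y : Cm D) : ℂ :=
  (if i = k then 1 else 0) * (θ y : ℂ) + y k * dz i (fun x => (θ x : ℂ)) y

/-- `∂bar_j (|w|² θ) = w * nu` -/
def nu (k : Fin D) (θ : Cm D → ℝ) (j : Fin D) (y : Cm D) : ℂ :=
  (if j = k then 1 else 0) * (θ y : ℂ) + (starRingEnd ℂ) (y k) * dzb j (fun x => (θ x : ℂ)) y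

theorem cast_u (k : Fin D) (θ : Cm D → ℝ) (ε : ℝ) :
    (fun y : Cm D => ((‖y k‖ ^ 2 * θ y + ε : ℝ) : ℂ)) =
      fun y => y k * ((starRingEnd ℂ) (y k) * (θ y : ℂ)) + ε := by
  funext y
  rw [← mul_assoc, Complex.mul_conj, Complex.normSq_eq_norm_sq]
  push_cast
  rfl

theorem dz_u (k : Fin D) {θ : Cm D → ℝ} {y : Cm D} (hθ : DifferentiableAt ℝ θ y) (ε : ℝ)
    (i : Fin D) : dz i (fun y : Cm D => ((‖y k‖ ^ 2 * θ y + ε : ℝ) : ℂ)) y =
      (starRingEnd ℂ) (y k) * mu k θ i y := by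
  have h1 := diff_coord k y
  have h2 := differentiableAt_conj h1
  have h3 := differentiableAt_ofReal hθ
  rw [cast_u, dz_add i (h1.fun_mul (h2.fun_mul h3)) (differentiableAt_const _), dz_const,
    dz_mul i h1 (h2.fun_mul h3), dz_mul i h2 h3, dz_coord, dz_cc, mu]
  ring

theorem dzb_u (k : Fin D) {θ : Cm D → ℝ} {y : Cm D} (hθ : DifferentiableAt ℝ θ y) (ε : ℝ)
    (j : Fin D) : dzb j (fun y : Cm D => ((‖y k‖ ^ 2 * θ y + ε : ℝ) : ℂ)) y =
      y k * nu k θ j y := by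
  have h1 := diff_coord k y
  have h2 := differentiableAt_conj h1
  have h3 := differentiableAt_ofReal hθ
  rw [cast_u, dzb_add j (h1.fun_mul (h2.fun_mul h3)) (differentiableAt_const _), dzb_const,
    dzb_mul j h1 (h2.fun_mul h3), dzb_mul j h2 h3, dzb_coord, dzb_cc, nu]
  ring

theorem cd_u (k : Fin D) {θ : Cm D → ℝ} {y : Cm D} {m : WithTop ℕ∞} (hθ : ContDiffAt ℝ m θ y)
    (ε : ℝ) : ContDiffAt ℝ m (fun y : Cm D => ‖y k‖ ^ 2 * θ y + ε) y := by
  have h1 : ContDiffAt ℝ m (fun y : Cm D => y k) y :=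
    (ContinuousLinearMap.proj (R := ℝ) (φ := fun _ : Fin D => ℂ) k).contDiff.contDiffAt
  exact ((h1.norm_sq ℂ).mul hθ).add contDiffAt_const

theorem cHess_u (k : Fin D) {θ : Cm D → ℝ} {y : Cm D} (hθ : ContDiffAt ℝ 2 θ y) (ε : ℝ)
    (i j : Fin D) : cHess (fun y : Cm D => ‖y k‖ ^ 2 * θ y + ε) y i j =
      (if i = k then 1 else 0) * nu k θ j y + y k * ((if j = k then 1 else 0) *
        dz i (fun x => (θ x : ℂ)) y + (starRingEnd ℂ) (y k) * cHess θ y i j) := by
  have e : dzb j (fun y : Cm D => ((‖y k‖ ^ 2 * θ y + ε : ℝ) : ℂ)) =ᶠ[𝓝 y]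
      fun y => y k * ((if j = k then 1 else 0) * (θ y : ℂ) +
        (starRingEnd ℂ) (y k) * dzb j (fun x => (θ x : ℂ)) y) := by
    filter_upwards [eventually_contDiffAt (m := 2) hθ] with x hx
    exact dzb_u k (hx.differentiableAt (by norm_num)) ε j
  have h1 := diff_coord k y
  have h2 := differentiableAt_conj h1
  have h3 := differentiableAt_ofReal (hθ.differentiableAt (by norm_num))
  have h4 := differentiableAt_dzb j (contDiffAt_ofReal hθ)
  rw [cHess_apply, dz_congr i e, dz_mul i h1 ((h3.const_mul _).fun_add (h2.fun_mul h4)),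
    dz_add i (h3.const_mul _) (h2.fun_mul h4), dz_const_mul i _ h3, dz_mul i h2 h4, dz_coord, dz_cc,
    cHess_apply, nu]
  ring

/-- The complex Hessian of `log (|w|² θ + ε)`. -/
theorem cHess_eps (k : Fin D) {θ : Cm D → ℝ} {y : Cm D} (hθ : ContDiffAt ℝ 2 θ y) (h0 : 0 < θ y)
    {ε : ℝ} (hε : 0 < ε) (i j : Fin D) :
    cHess (fun x : Cm D => Real.log (‖x k‖ ^ 2 * θ x + ε)) y i j =
      ((‖y k‖ ^ 2 * θ y / (‖y k‖ ^ 2 * θ y + ε) : ℝ) : ℂ) *
        cHess (fun x => Real.log (θ x)) y i j +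
      ((ε * θ y / (‖y k‖ ^ 2 * θ y + ε) ^ 2 : ℝ) : ℂ) *
        (mu k θ i y * nu k θ j y / (θ y : ℂ) ^ 2) := by
  have hd := hθ.differentiableAt (by norm_num)
  have hp : 0 < ‖y k‖ ^ 2 * θ y + ε := by positivity
  rw [cHess_log (cd_u k hθ ε) hp, cHess_log hθ h0, cHess_u k hθ, dz_u k hd, dzb_u k hd]
  have e1 : ((‖y k‖ : ℝ) : ℂ) ^ 2 = y k * (starRingEnd ℂ) (y k) := by
    rw [Complex.mul_conj, Complex.normSq_eq_norm_sq]
    push_cast
    rfl
  have hp' : ((‖y k‖ ^ 2 * θ y + ε : ℝ) : ℂ) ≠ 0 := Complex.ofReal_ne_zero.2 hp.ne'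
  have h0' : (θ y : ℂ) ≠ 0 := Complex.ofReal_ne_zero.2 h0.ne'
  push_cast at hp' ⊢
  rw [e1] at hp' ⊢
  simp only [mu, nu]
  generalize (if i = k then (1 : ℂ) else 0) = a
  generalize (if j = k then (1 : ℂ) else 0) = b
  field_simp
  ring

end Vale.Agent.P269CL
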