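import Vale.Agent.P269CL.PL
import Vale.Agent.P269C.Spec

/-!
# P269, block C: the row PL
-/

set_option autoImplicit false
set_option linter.all false

noncomputable section

namespace Vale.Agent.P269CL

open Set Filter MvPolynomial MeasureTheory Vale.Agent.P272.K Vale.Agent.P272.K.C2 Vale.Agent.P269C
open scoped Topology ContDiff

variable {D : ℕ}

/-- coordinates `ℂ × ℂ^D`, the first factor being the last coordinate -/
def eH (D : ℕ) : (ℂ × Cm D) ≃ₜ Cm (D + 1) where
  toEquiv := Fin.snocEquiv fun _ => ℂ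
  continuous_toFun := Continuous.finSnoc (A := fun _ => ℂ) continuous_snd continuous_fst
  continuous_invFun := (continuous_apply _).prodMk (Continuous.finInit (A := fun _ => ℂ) continuous_id)

theorem eH_last (p : ℂ × Cm D) : eH D p (Fin.last D) = p.1 := Fin.snoc_last (α := fun _ => ℂ) _ _

theorem eH_zero (b : Cm D) : eH D (0, b) = sl b := rfl

theorem sl_last (b : Cm D) : sl b (Fin.last D) = 0 := Fin.snoc_last (α := fun _ => ℂ) _ _

theorem integral_eH (f : Cm (D + 1) → ℂ) : ∫ y, f y = ∫ p : ℂ × Cm D, f (eH D p) := by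
  have h := (volume_preserving_piFinSuccAbove (fun _ : Fin (D + 1) => ℂ) (Fin.last D)).symm
  have h2 := h.integral_comp' (g := f)
  rw [← h2]
  refine integral_congr_ae (Eventually.of_forall fun p => ?_)
  simp only [MeasurableEquiv.piFinSuccAbove_symm_apply, Fin.insertNthEquiv, Equiv.coe_fn_mk,
    Fin.insertNth_last']
  rfl

theorem plT {W K : Set (Cm (D + 1))} (hW : IsOpen W) (hK : IsCompact K) (hKW : K ⊆ W)
    {θ : Cm (D + 1) → ℝ} (hθ : ∀ y ∈ W, ContDiffAt ℝ 2 θ y ∧ 0 < θ y) {χ : Cm (D + 1) → ℂ}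
    (hχ : ContinuousOn χ W) (h0 : ∀ y ∉ K, χ y = 0)
    {T : Fin (D + 1) → Fin (D + 1) → Cm (D + 1) → ℂ} (hT : ∀ i j, ContinuousOn (T i j) W) :
    Tendsto (fun ε : ℝ => ∫ y, χ y * ∑ i, ∑ j,
        cHess (fun x => Real.log (‖x (Fin.last D)‖ ^ 2 * θ x + ε)) y i j * T i j y) (𝓝[>] 0)
      (𝓝 ((∫ y, χ y * ∑ i, ∑ j, cHess (fun x => Real.log (θ x)) y i j * T i j y) +
        ∫ b : Cm D, χ (sl b) * (Real.pi * T (Fin.last D) (Fin.last D) (sl b)))) := by
  have hθc : ContinuousOn θ W := fun y hy => (hθ y hy).1.continuousAt.continuousWithinAt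
  have hθc' : ContinuousOn (fun y => (θ y : ℂ)) W := Complex.continuous_ofReal.comp_continuousOn hθc
  have hne : ∀ y ∈ W, (θ y : ℂ) ≠ 0 := fun y hy => Complex.ofReal_ne_zero.2 (hθ y hy).2.ne'
  set b : Cm (D + 1) → ℂ := fun y => χ y *
    ∑ i, ∑ j, cHess (fun x => Real.log (θ x)) y i j * T i j y with hb
  set H : Cm (D + 1) → ℂ := fun y => χ y * ∑ i, ∑ j,
    mu (Fin.last D) θ i y * nu (Fin.last D) θ j y / (θ y : ℂ) ^ 2 * T i j y with hH
  have cb : ContinuousOn b W := hχ.mul (continuousOn_finset_sum _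
    fun i _ => continuousOn_finset_sum _ fun j _ =>
      (cont_cHess (fun y hy => (hθ y hy).1.log (hθ y hy).2.ne') i j).mul (hT i j))
  have c0 : Continuous fun y : Cm (D + 1) => y (Fin.last D) := continuous_apply _
  have cH : ContinuousOn H W := by
    refine hχ.mul (continuousOn_finset_sum _ fun i _ => continuousOn_finset_sum _ fun j _ =>
      ContinuousOn.mul (ContinuousOn.div (ContinuousOn.mul ?_ ?_) (hθc'.pow 2)
        fun y hy => pow_ne_zero 2 (hne y hy)) (hT i j))
    · refine (continuousOn_const.mul hθc').add (c0.continuousOn.mul fun y hy => ?_)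
      exact (differentiableAt_dz i (contDiffAt_ofReal (hθ y hy).1)).continuousAt.continuousWithinAt
    · refine (continuousOn_const.mul hθc').add
        ((Complex.continuous_conj.comp c0).continuousOn.mul fun y hy => ?_)
      exact (differentiableAt_dzb j (contDiffAt_ofReal (hθ y hy).1)).continuousAt.continuousWithinAt
  have zb : ∀ y ∉ K, b y = 0 := fun y hy => by simp only [hb, h0 y hy, zero_mul]
  have zH : ∀ y ∉ K, H y = 0 := fun y hy => by simp only [hH, h0 y hy, zero_mul]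
  have cN : ContinuousOn (fun y : Cm (D + 1) => ‖y (Fin.last D)‖ ^ 2 * θ y) W :=
    (c0.norm.pow 2).continuousOn.mul hθc
  have hN0 : ∀ y ∈ W, 0 ≤ ‖y (Fin.last D)‖ ^ 2 * θ y := fun y hy => by
    have := (hθ y hy).2
    positivity
  have hae : ∀ᵐ y : Cm (D + 1), y ∈ W → 0 < ‖y (Fin.last D)‖ ^ 2 * θ y := by
    have h1 : ∀ᵐ y : Cm (D + 1), y (Fin.last D) ≠ 0 :=
      Measure.ae_eval_ne (fun _ : Fin (D + 1) => (volume : Measure ℂ)) _ (0 : ℂ)
    filter_upwards [h1] with y h2 hy
    exact mul_pos (pow_pos (norm_pos_iff.2 h2) 2) (hθ y hy).2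
  obtain ⟨i1, l1⟩ := lim_dom hW hK hKW cN hN0 hae cb zb 1
  have hKe : IsCompact (eH D ⁻¹' K) := (eH D).isCompact_preimage.2 hK
  have hs : Function.support (fun p => H (eH D p)) ⊆ eH D ⁻¹' K :=
    fun p hp => by_contra fun h => hp (zH _ h)
  have l2 := P277Z.Top.PL.tendsto_kernel (H := fun p => H (eH D p)) (θ := fun p => θ (eH D p))
    (W := eH D ⁻¹' W) (hW.preimage (eH D).continuous)
    ((cont_of hW hK.isClosed hKW cH zH).comp (eH D).continuous)
    (HasCompactSupport.intro hKe fun p hp => zH _ hp)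
    ((closure_minimal hs hKe.isClosed).trans (preimage_mono hKW))
    (hθc.comp (eH D).continuous.continuousOn fun p hp => hp) fun p hp => (hθ _ hp).2
  have hv : (Real.pi : ℂ) * ∫ w : Cm D, H (eH D (0, w)) =
      ∫ b : Cm D, χ (sl b) * (Real.pi * T (Fin.last D) (Fin.last D) (sl b)) := by
    rw [← integral_const_mul]
    refine integral_congr_ae (Eventually.of_forall fun w => ?_)
    show (Real.pi : ℂ) * H (sl w) = χ (sl w) * (Real.pi * T (Fin.last D) (Fin.last D) (sl w))
    by_cases hw : sl w ∈ W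
    · have h1 := hne _ hw
      simp only [hH, mu, nu, sl_last, map_zero, zero_mul, add_zero, Fin.sum_univ_castSucc,
        Fin.castSucc_ne_last, if_false, if_true, mul_zero, zero_div, Finset.sum_const_zero,
        zero_add]
      field_simp
    · simp [hH, h0 _ fun h => hw (hKW h)]
  rw [hv] at l2
  refine (l1.add l2).congr' ?_
  filter_upwards [self_mem_nhdsWithin] with ε hε
  have hε' : (0 : ℝ) < ε := hε
  have j2 : Integrable fun y : Cm (D + 1) =>
      ((ε * θ y / (‖y (Fin.last D)‖ ^ 2 * θ y + ε) ^ 2 : ℝ) : ℂ) * H y := by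
    refine integrable_of hW hK hKW (ContinuousOn.mul ?_ cH) fun y hy => by rw [zH y hy, mul_zero]
    refine Complex.continuous_ofReal.comp_continuousOn ((continuousOn_const.mul hθc).div
      ((cN.add continuousOn_const).pow 2) fun y hy => ?_)
    have := hN0 y hy
    positivity
  have e1 := integral_eH fun y : Cm (D + 1) =>
    ((ε * θ y / (‖y (Fin.last D)‖ ^ 2 * θ y + ε) ^ 2 : ℝ) : ℂ) * H y
  simp only [eH_last] at e1
  rw [← e1]
  refine (integral_add (i1 ε hε) j2).symm.trans ?_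
  refine integral_congr_ae (Eventually.of_forall fun y => ?_)
  by_cases hy : y ∈ W
  · obtain ⟨h1, h2⟩ := hθ y hy
    simp only [cHess_eps (Fin.last D) h1 h2 hε', hb,
      hH, add_mul, Finset.sum_add_distrib, mul_assoc, ← Finset.mul_sum]
    ring
  · have h1 := h0 y fun h => hy (hKW h)
    simp [hb, hH, h1]

theorem tau_dd (u : Cm D → ℝ) (y : Cm D) (γ : Po D) :
    tau (dd u y * γ) = ∑ i, ∑ j, cHess u y i j * tau (X (i, j) * γ) := by
  rw [mul_comm]
  refine (tau_form γ fun i j => cHess u y i j).trans ?_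
  simp only [mul_comm γ]

theorem plT_off {W K : Set (Cm D)} (hW : IsOpen W) (hK : IsCompact K) (hKW : K ⊆ W)
    {θ : Cm D → ℝ} (hθ : ∀ y ∈ W, ContDiffAt ℝ 2 θ y ∧ 0 < θ y) {χ : Cm D → ℂ}
    (hχ : ContinuousOn χ W) (h0 : ∀ y ∉ K, χ y = 0)
    {T : Fin D → Fin D → Cm D → ℂ} (hT : ∀ i j, ContinuousOn (T i j) W) :
    Tendsto (fun ε : ℝ => ∫ y, χ y * ∑ i, ∑ j,
        cHess (fun x => Real.log (θ x + ε)) y i j * T i j y) (𝓝[>] 0)
      (𝓝 (∫ y, χ y * ∑ i, ∑ j, cHess (fun x => Real.log (θ x)) y i j * T i j y)) := by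
  have hθc : ContinuousOn θ W := fun y hy => (hθ y hy).1.continuousAt.continuousWithinAt
  have hθc' : ContinuousOn (fun y => (θ y : ℂ)) W := Complex.continuous_ofReal.comp_continuousOn hθc
  have hne : ∀ y ∈ W, (θ y : ℂ) ≠ 0 := fun y hy => Complex.ofReal_ne_zero.2 (hθ y hy).2.ne'
  set b1 : Cm D → ℂ := fun y =>
    χ y * ((θ y : ℂ)⁻¹ * ∑ i, ∑ j, cHess θ y i j * T i j y) with hb1
  set b2 : Cm D → ℂ := fun y => χ y * (((θ y : ℂ) ^ 2)⁻¹ * ∑ i, ∑ j,
    dz i (fun y => (θ y : ℂ)) y * dzb j (fun y => (θ y : ℂ)) y * T i j y) with hb2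
  have c1' : ContinuousOn b1 W := hχ.mul ((hθc'.inv₀ hne).mul (continuousOn_finset_sum _
    fun i _ => continuousOn_finset_sum _ fun j _ =>
      (cont_cHess (fun y hy => (hθ y hy).1) i j).mul (hT i j)))
  have c2' : ContinuousOn b2 W := by
    refine hχ.mul (((hθc'.pow 2).inv₀ fun y hy => pow_ne_zero 2 (hne y hy)).mul
      (continuousOn_finset_sum _ fun i _ => continuousOn_finset_sum _ fun j _ =>
        ContinuousOn.mul (fun y hy => ?_) (hT i j)))
    have h1 := contDiffAt_ofReal (hθ y hy).1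
    exact ((differentiableAt_dz i h1).continuousAt.mul
      (differentiableAt_dzb j h1).continuousAt).continuousWithinAt
  have z1 : ∀ y ∉ K, b1 y = 0 := fun y hy => by simp only [hb1, h0 y hy, zero_mul]
  have z2 : ∀ y ∉ K, b2 y = 0 := fun y hy => by simp only [hb2, h0 y hy, zero_mul]
  have hae : ∀ᵐ y, y ∈ W → 0 < θ y := Eventually.of_forall fun y hy => (hθ y hy).2
  obtain ⟨i1, l1⟩ := lim_dom hW hK hKW hθc (fun y hy => (hθ y hy).2.le) hae c1' z1 1
  obtain ⟨i2, l2⟩ := lim_dom hW hK hKW hθc (fun y hy => (hθ y hy).2.le) hae c2' z2 2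
  have j1 := integrable_of hW hK hKW c1' z1
  have j2 := integrable_of hW hK hKW c2' z2
  have key := l1.sub l2
  have e : (∫ y, b1 y) - ∫ y, b2 y =
      ∫ y, χ y * ∑ i, ∑ j, cHess (fun x => Real.log (θ x)) y i j * T i j y := by
    rw [← integral_sub j1 j2]
    refine integral_congr_ae (Eventually.of_forall fun y => ?_)
    by_cases hy : y ∈ W
    · obtain ⟨h1, h2⟩ := hθ y hy
      simp only [cHess_log h1 h2, hb1, hb2, sub_mul, Finset.sum_sub_distrib, mul_assoc,
        ← Finset.mul_sum]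
      push_cast
      ring
    · have h1 := h0 y fun h => hy (hKW h)
      simp [hb1, hb2, h1]
  rw [e] at key
  refine key.congr' ?_
  filter_upwards [self_mem_nhdsWithin] with ε hε
  have hε' : (0 : ℝ) < ε := hε
  rw [← integral_sub (i1 ε hε) (i2 ε hε)]
  refine integral_congr_ae (Eventually.of_forall fun y => ?_)
  by_cases hy : y ∈ W
  · obtain ⟨h1, h2⟩ := hθ y hy
    have h3 : ContDiffAt ℝ 2 (fun x => θ x + ε) y := h1.add contDiffAt_const
    have h4 : 0 < θ y + ε := by positivity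
    have hd := differentiableAt_ofReal (h1.differentiableAt (by norm_num))
    have e0 : (fun x => ((θ x + ε : ℝ) : ℂ)) = fun x => (θ x : ℂ) + ε := by
      funext x
      push_cast
      rfl
    have e1 : ∀ i, dz i (fun x => ((θ x + ε : ℝ) : ℂ)) y = dz i (fun x => (θ x : ℂ)) y := by
      intro i
      rw [e0, dz_add i hd (differentiableAt_const _), dz_const, add_zero]
    have e2 : ∀ i, dzb i (fun x => ((θ x + ε : ℝ) : ℂ)) y = dzb i (fun x => (θ x : ℂ)) y := by
      intro i
      rw [e0, dzb_add i hd (differentiableAt_const _), dzb_const, add_zero]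
    have e3 : cHess (fun x => θ x + ε) y = cHess θ y := by
      rw [cHess_add h1 contDiffAt_const, cHess_const, add_zero]
    have h5 : (θ y : ℂ) + ε ≠ 0 := by
      have := Complex.ofReal_ne_zero.2 h4.ne'
      push_cast at this
      exact this
    have h6 := hne y hy
    simp only [cHess_log h3 h4, e1, e2, e3, hb1, hb2, sub_mul, Finset.sum_sub_distrib, mul_assoc,
      ← Finset.mul_sum]
    push_cast
    field_simp
  · have h1 := h0 y fun h => hy (hKW h)
    simp [hb1, hb2, h1]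

/-- **Row PL.** -/
theorem pl_of (h : TAU) : PL := by
  intro D w v γ hw hc hv
  set W : Set (Cm (D + 1)) := {y | ContDiffAt ℝ 2 v y ∧
    ∀ i j, ContDiffAt ℝ 1 (fun x => tau (X (i, j) * γ x)) y} with hW
  have hWo : IsOpen W := by
    rw [isOpen_iff_mem_nhds]
    intro y hy
    refine (eventually_contDiffAt (m := 2) hy.1).and ?_
    simp only [eventually_all]
    exact fun i j => eventually_contDiffAt (m := 1) (hy.2 i j)
  have hKW : tsupport w ⊆ W := by
    intro y hy
    refine ⟨(hv y hy).1.of_le (WithTop.coe_le_coe.2 le_top : ((2 : ℕ∞) : WithTop ℕ∞) ≤ ∞), fun i j => ?_⟩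
    exact (h.sm _ y ∞ (h.smm (fun _ => X (i, j)) γ y ∞ (fun m => contDiffAt_const)
      (hv y hy).2)).of_le (by exact_mod_cast le_top)
  have hθ : ∀ y ∈ W, ContDiffAt ℝ 2 (fun x => Real.exp (v x)) y ∧ 0 < Real.exp (v y) :=
    fun y hy => ⟨hy.1.exp, Real.exp_pos _⟩
  have hχ : ContinuousOn (fun y => (w y : ℂ)) W :=
    (Complex.continuous_ofReal.comp hw.continuous).continuousOn
  have h0 : ∀ y ∉ tsupport w, (w y : ℂ) = 0 := fun y hy => by
    rw [image_eq_zero_of_notMem_tsupport hy, Complex.ofReal_zero]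
  have hT : ∀ i j, ContinuousOn (fun x => tau (X (i, j) * γ x)) W :=
    fun i j y hy => (hy.2 i j).continuousAt.continuousWithinAt
  have k1 := plT hWo hc hKW hθ hχ h0 hT
  have k2 := plT_off hWo hc hKW hθ hχ h0 hT
  have hpi : (Real.pi : ℂ) ≠ 0 := Complex.ofReal_ne_zero.2 Real.pi_ne_zero
  simp only [Real.log_exp, h.res _ (0 : Cm D), mul_div_cancel₀ _ hpi] at k1 k2
  simp only [tau_dd]
  refine ⟨?_, k2⟩
  have e : ∀ b : Cm D, tau (pb (jac sl b) (γ (sl b))) = tau (pb (jac sl (0 : Cm D)) (γ (sl b))) := by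
    intro b
    have h1 := (h.res (γ (sl b)) b).symm.trans (h.res (γ (sl b)) 0)
    rwa [div_left_inj' hpi] at h1
  simp only [e]
  exact k1

end Vale.Agent.P269CL
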