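import Vale.Agent.P269CL.Key
import Vale.Agent.P269CQ.Two

/-!
# P269, block C: the row KEY, unconditional
-/

namespace Vale.Agent.P269CL

theorem key : P269C.KEY := key_of fun D w g A K Z N => P269CQ.core D w g A K Z N

end Vale.Agent.P269CL
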