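import Vale.Agent.P269CL.Main
import Vale.Agent.P269CD.Defs
import Vale.Agent.P269CG.TauRow

/-!
# P269, block C: the row PLI
-/

set_option autoImplicit false
set_option linter.all false

noncomputable section

namespace Vale.Agent.P269CL

open Set Filter MvPolynomial MeasureTheory Vale.Agent.P272.K Vale.Agent.P272.K.C2 Vale.Agent.P269C
  Vale.Agent.P269CD
open scoped Topology ContDiff Classical

theorem pl_row : PL := pl_of P269CG.tau_row

theorem cont_tau_gd (hG : GDC) {D : ℕ} {W : Set (Cm D)} {β : Cm D → Po D}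
    (h : ∀ y ∈ W, Gd y β) : ContinuousOn (fun y => tau (β y)) W := fun y hy =>
  (P269CG.tau_row.sm β y ∞ (hG D y β (h y hy)).sm).continuousAt.continuousWithinAt

theorem cont_tau_dd (hG : GDC) {D : ℕ} {W : Set (Cm D)} {β : Cm D → Po D} {v : Cm D → ℝ}
    (hv : ∀ y ∈ W, ContDiffAt ℝ ∞ v y) (h : ∀ y ∈ W, Gd y β) :
    ContinuousOn (fun y => tau (dd v y * β y)) W := by
  simp only [tau_dd]
  refine continuousOn_finset_sum _ fun i _ => continuousOn_finset_sum _ fun j _ => ?_
  refine (cont_cHess (fun y hy => (hv y hy).of_le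
    (WithTop.coe_le_coe.2 le_top : ((2 : ℕ∞) : WithTop ℕ∞) ≤ ∞)) i j).mul fun y hy => ?_
  exact (P269CG.tau_row.sm _ y ∞ (P269CG.tau_row.smm (fun _ => X (i, j)) β y ∞
    (fun m => contDiffAt_const) (hG D y β (h y hy)).sm)).continuousAt.continuousWithinAt

theorem integrable_w {D : ℕ} {W : Set (Cm D)} (hW : IsOpen W) {w : Cm D → ℝ} (hw : Continuous w)
    (hc : HasCompactSupport w) (hs : tsupport w ⊆ W) {f : Cm D → ℂ} (hf : ContinuousOn f W) :
    Integrable fun y => (w y : ℂ) * f y :=
  integrable_of hW hc hs ((Complex.continuous_ofReal.comp hw).continuousOn.mul hf) fun y hy => by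
    rw [image_eq_zero_of_notMem_tsupport hy, Complex.ofReal_zero, zero_mul]

/-- **Row PLI.** -/
theorem pli (hG : GDC) (hK : KEYX) (hY : YF) : PLI := by
  intro L _ g D A U h' h hh' hh i γ hγ
  choose v hv using fun j : U.J => hY.rat (U.c j) hh' hh (A.kur j.1) i
  have hw := fun j : U.J => (U j.1).sm j.2
  -- the theorem of Stokes for the regularised ratio
  have key : ∀ ε > (0 : ℝ), ∑ j : U.J, ∫ y, U.w j y * tau (dd (fun x => Real.log
      ((if (U.c j).ad = some i then ‖x (Fin.last D)‖ ^ 2 else 1) * Real.exp (v j x) + ε)) y *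
        γ j y) = 0 := by
    intro ε hε
    refine hK L g D A U _ (fun a p => Real.log (rat h' h (A.C a) i p + ε)) ?_ ?_ γ hγ
    · intro a a' b b' Φ hb hΦ p hp
      simp only [hY.nat hh' hh (A.kur a).1 (A.kur a').1 hb hΦ i p hp]
    · intro j y hy
      obtain ⟨h1, -, h3⟩ := hv j y hy
      refine ⟨?_, fun hx => by simp only [h3 hx]⟩
      have h4 := Real.exp_pos (v j y)
      split_ifs
      · exact (cd_u (Fin.last D) h1.exp ε).log (by positivity)
      · exact ((contDiffAt_const.mul h1.exp).add contDiffAt_const).log (by positivity)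
  have lim : Tendsto (fun ε : ℝ => ∑ j : U.J, ∫ y, U.w j y * tau (dd (fun x => Real.log
      ((if (U.c j).ad = some i then ‖x (Fin.last D)‖ ^ 2 else 1) * Real.exp (v j x) + ε)) y *
        γ j y)) (𝓝[>] 0) (𝓝 (∑ j : U.J, ((∫ y, U.w j y * tau (dd (v j) y * γ j y)) +
        if (U.c j).ad = some i then
          ∫ b, U.w j (sl b) * tau (pb (jac sl b) (γ j (sl b))) else 0))) := by
    refine tendsto_finset_sum _ fun j _ => ?_
    have h1 := pl_row D (U.w j) (v j) (γ j) (hw j).1 (hw j).2.1 fun y hy =>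
      ⟨(hv j y ((hw j).2.2 hy)).1, (hG _ y _ (hγ.1 j y ((hw j).2.2 hy))).sm⟩
    split_ifs
    · exact h1.1
    · simpa only [one_mul, add_zero] using h1.2
  have z : (∑ j : U.J, ((∫ y, U.w j y * tau (dd (v j) y * γ j y)) +
        if (U.c j).ad = some i then
          ∫ b, U.w j (sl b) * tau (pb (jac sl b) (γ j (sl b))) else 0)) = 0 := by
    refine tendsto_nhds_unique lim (tendsto_const_nhds.congr' ?_)
    filter_upwards [self_mem_nhdsWithin] with ε hε
    exact (key ε hε).symm
  rw [Finset.sum_add_distrib] at z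
  have e : U.I (U.p (Ps A h i) * γ) = U.I (U.Y h' (some i) * γ) +
      ∑ j : U.J, ∫ y, U.w j y * tau (dd (v j) y * γ j y) := by
    rw [UC.I, UC.I, ← Finset.sum_add_distrib]
    refine Finset.sum_congr rfl fun j _ => ?_
    have ho := (U.c j).e.open_target
    have i1 := integrable_w ho (hw j).1.continuous (hw j).2.1 (hw j).2.2
      (cont_tau_gd hG fun y hy =>
        ((hY.gen (U.c j) hh' (A.kur j.1) (some i) y hy).1.mul (hγ.1 j y hy)))
    have i2 := integrable_w ho (hw j).1.continuous (hw j).2.1 (hw j).2.2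
      (cont_tau_dd hG (fun y hy => (hv j y hy).1) (hγ.1 j))
    refine Eq.trans ?_ (integral_add i1 i2)
    refine integral_congr_ae (Eventually.of_forall fun y => ?_)
    by_cases hy : y ∈ (U.c j).e.target
    · have h2 := (hv j y hy).2.1
      show (U.w j y : ℂ) * tau (pb (jac (U.c j).p y) (psi h (A.C j.1) ((U.c j).p y) i) * γ j y) =
        U.w j y * tau (ex (gf h' (A.C j.1) (U.c j).e.symm (some i)) y * γ j y) +
          U.w j y * tau (dd (v j) y * γ j y)
      rw [h2, ← mul_add, ← P269CG.tau_row.add, ← add_mul, sub_add_cancel]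
    · have h0 : U.w j y = 0 := image_eq_zero_of_notMem_tsupport fun h => hy ((hw j).2.2 h)
      have h0' : (U j.1).w j.2 y = 0 := h0
      simp only [h0, h0', Complex.ofReal_zero, zero_mul, add_zero]
  rw [e, add_assoc]
  exact (add_zero _).symm.trans (congrArg _ z.symm)

end Vale.Agent.P269CL
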