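import Vale.Agent.P269CL.Main
import Vale.Agent.P269CG.TauRow

/-!
# P269, block C: the row KEY (Stokes on a groupoid)
-/

set_option autoImplicit false
set_option linter.all false

noncomputable section

namespace Vale.Agent.P269CL

open Set Filter MvPolynomial MeasureTheory Vale.Agent.P272.K Vale.Agent.P272.K.C2 Vale.Agent.P269C
open scoped Topology ContDiff Classical Matrix

variable {D : ℕ}

/-- integration along a finite etale correspondence -/
def CORE : Prop := ∀ (D : ℕ) (w : Cm D → ℝ) (g A : Cm D → ℂ) (K Z : Set (Cm D))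
  (N : Cm D → Cm D → ℕ), Continuous w → HasCompactSupport w → volume Z = 0 → Continuous g →
  (∀ x, x ∉ K → g x = 0) →
  (∀ y₀ ∈ tsupport w, ∃ (k : ℕ) (φ : Fin k → Cm D → Cm D), (∀ j, AnalyticAt ℂ (φ j) y₀) ∧
    (∀ᶠ y in 𝓝 y₀, ∀ x ∈ K, N y x = (Finset.univ.filter fun j => φ j y = x).card) ∧
    ∀ᶠ y in nae y₀, w y ≠ 0 →
      A y = ∑ j, ((‖(jac (φ j) y).det‖ ^ 2 : ℝ) : ℂ) * g (φ j y)) →
  Integrable (fun y => (w y : ℂ) * A y) ∧
  Integrable (fun x => g x * ((∑ᶠ y ∈ Zᶜ, (N y x : ℝ) * w y : ℝ) : ℂ)) ∧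
  ∫ y, (w y : ℂ) * A y = ∫ x, g x * ((∑ᶠ y ∈ Zᶜ, (N y x : ℝ) * w y : ℝ) : ℂ)

theorem two_le : (2 : WithTop ℕ∞) ≤ ∞ :=
  (WithTop.coe_le_coe.2 le_top : ((2 : ℕ∞) : WithTop ℕ∞) ≤ ∞)

theorem one_le' : (1 : WithTop ℕ∞) ≤ ∞ :=
  (WithTop.coe_le_coe.2 le_top : ((1 : ℕ∞) : WithTop ℕ∞) ≤ ∞)

theorem int_fderiv {F : Cm D → ℂ} (hF : ContDiff ℝ 1 F) (hc : HasCompactSupport F) (v : Cm D) :
    Integrable (fun y => fderiv ℝ F y v) ∧ ∫ y, fderiv ℝ F y v = 0 := by
  have h1 : Continuous fun y => fderiv ℝ F y v :=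
    (hF.continuous_fderiv (by norm_num)).clm_apply continuous_const
  have h2 : Integrable fun y => fderiv ℝ F y v :=
    h1.integrable_of_hasCompactSupport (hc.fderiv_apply ℝ v)
  refine ⟨h2, ?_⟩
  have h := integral_mul_fderiv_eq_neg_fderiv_mul_of_integrable (μ := volume)
    (f := fun _ : Cm D => (1 : ℂ)) (g := F) (v := v) (by simp) (by simpa using h2)
    (by simpa using hF.continuous.integrable_of_hasCompactSupport hc)
    (fun _ _ => differentiableAt_const _) (fun x _ => hF.differentiable (by norm_num) x)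
  simpa using h

theorem int_dz {F : Cm D → ℂ} (hF : ContDiff ℝ 1 F) (hc : HasCompactSupport F) (k : Fin D) :
    Integrable (dz k F) ∧ ∫ y, dz k F y = 0 := by
  obtain ⟨i1, e1⟩ := int_fderiv hF hc (Pi.single k 1)
  obtain ⟨i2, e2⟩ := int_fderiv hF hc (Pi.single k Complex.I)
  refine ⟨(i1.sub (i2.const_mul Complex.I)).div_const 2, ?_⟩
  unfold dz
  rw [integral_div, integral_sub i1 (i2.const_mul _), integral_const_mul, e1, e2]
  simp

/-- the density of `∂ f ∧ ∂bar u ∧ β` -/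
def eta (u : Cm D → ℝ) (β : Cm D → Po D) (f : Cm D → ℝ) (y : Cm D) : ℂ :=
  ∑ k, ∑ l, dz k (fun x => (f x : ℂ)) y * dzb l (fun x => (u x : ℂ)) y * tau (X (k, l) * β y)

theorem eta_Lf (u : Cm D → ℝ) (β : Cm D → Po D) (f : Cm D → ℝ) (y : Cm D) :
    eta u β f y = tau (P269CG.Lf (fun k => dz k (fun x => (f x : ℂ)) y)
      (fun l => dzb l (fun x => (u x : ℂ)) y) * β y) := by
  rw [mul_comm, P269CG.Lf, tau_form (β y) fun k l =>
    dz k (fun x => (f x : ℂ)) y * dzb l (fun x => (u x : ℂ)) y]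
  simp only [eta, mul_comm (β y)]

theorem cast_ev {f g : Cm D → ℝ} {y : Cm D} (h : f =ᶠ[𝓝 y] g) :
    (fun x => (f x : ℂ)) =ᶠ[𝓝 y] fun x => (g x : ℂ) := h.mono fun x hx => by simp only [hx]

theorem eta_congr {u u' : Cm D → ℝ} (β : Cm D → Po D) {f f' : Cm D → ℝ} {y : Cm D}
    (hu : u =ᶠ[𝓝 y] u') (hf : f =ᶠ[𝓝 y] f') : eta u β f y = eta u' β f' y := by
  simp only [eta, dz_congr _ (cast_ev hf), dzb_congr _ (cast_ev hu)]

theorem eta_const (u : Cm D → ℝ) (β : Cm D → Po D) {f : Cm D → ℝ} {y : Cm D} {c : ℝ}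
    (hf : f =ᶠ[𝓝 y] fun _ => c) : eta u β f y = 0 := by
  rw [eta_congr β EventuallyEq.rfl hf]
  simp only [eta, dz_const, zero_mul, Finset.sum_const_zero]

theorem eta_sum (u : Cm D → ℝ) (β : Cm D → Po D) {J : Type} (s : Finset J) {f : J → Cm D → ℝ}
    {y : Cm D} (hf : ∀ j ∈ s, DifferentiableAt ℝ (f j) y) :
    eta u β (fun x => ∑ j ∈ s, f j x) y = ∑ j ∈ s, eta u β (f j) y := by
  have e : ∀ k, dz k (fun x => ((∑ j ∈ s, f j x : ℝ) : ℂ)) y =
      ∑ j ∈ s, dz k (fun x => (f j x : ℂ)) y := by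
    intro k
    simp only [Complex.ofReal_sum]
    exact dz_sum k s fun j hj => differentiableAt_ofReal (hf j hj)
  simp only [eta, e, Finset.sum_mul]
  rw [Finset.sum_comm' (s := s) (t' := Finset.univ) (s' := fun _ => s) (by simp)]
  refine Finset.sum_congr rfl fun k _ => Finset.sum_comm

theorem eta_comp {φ : Cm D → Cm D} {y : Cm D} (hφ : DifferentiableAt ℂ φ y) {u f : Cm D → ℝ}
    (hu : DifferentiableAt ℝ u (φ y)) (hf : DifferentiableAt ℝ f (φ y)) {β β' : Cm D → Po D}
    (hβ : β' y = pb (jac φ y) (β (φ y))) :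
    eta (fun x => u (φ x)) β' (fun x => f (φ x)) y =
      ((‖(jac φ y).det‖ ^ 2 : ℝ) : ℂ) * eta u β f (φ y) := by
  rw [eta_Lf, eta_Lf, ← P269CG.tau_pb', map_mul, P269CG.pb_Lf, hβ]
  have e1 : (fun k => dz k (fun x => (f (φ x) : ℂ)) y) =
      (fun k => dz k (fun x => (f x : ℂ)) (φ y)) ᵥ* jac φ y := by
    funext k
    rw [P269CG.dz_op, P269CG.opz_comp hφ (differentiableAt_ofReal hf)]
    simp only [Matrix.vecMul, dotProduct, smul_eq_mul, P269CG.dz_op, mul_comm]
  have e2 : (fun l => dzb l (fun x => (u (φ x) : ℂ)) y) =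
      (fun l => dzb l (fun x => (u x : ℂ)) (φ y)) ᵥ* (jac φ y).map (starRingEnd ℂ) := by
    funext k
    rw [P269CG.dzb_op, P269CG.opb_comp hφ (differentiableAt_ofReal hu)]
    simp only [Matrix.vecMul, dotProduct, smul_eq_mul, P269CG.dzb_op, mul_comm, Matrix.map_apply]
  rw [e1, e2]

theorem sm_T {β : Cm D → Po D} {y : Cm D} (h : Cl β y) (k l : Fin D) :
    ContDiffAt ℝ ∞ (fun x => tau (X (k, l) * β x)) y :=
  P269CG.tau_row.sm _ y ∞ (P269CG.tau_row.smm (fun _ => X (k, l)) β y ∞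
    (fun m => contDiffAt_const) h.sm)

theorem ev_zero {ρ : Cm D → ℝ} {y : Cm D} (hy : y ∉ tsupport ρ) : ρ =ᶠ[𝓝 y] fun _ => 0 :=
  notMem_tsupport_iff_eventuallyEq.1 hy

section
variable {ρ u : Cm D → ℝ} {β : Cm D → Po D}

theorem eta_cont (hρ : ContDiff ℝ ∞ ρ)
    (h : ∀ y ∈ tsupport ρ, ∀ᶠ x in 𝓝 y, ContDiffAt ℝ ∞ u x ∧ Cl β x) :
    Continuous (eta u β ρ) := by
  refine cont_of (W := interior {x | ContDiffAt ℝ ∞ u x ∧ Cl β x}) isOpen_interior
    (isClosed_tsupport ρ) (fun y hy => mem_interior_iff_mem_nhds.2 (h y hy)) ?_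
    fun y hy => eta_const u β (ev_zero hy)
  refine continuousOn_finset_sum _ fun k _ => continuousOn_finset_sum _ fun l _ => fun y hy => ?_
  obtain ⟨h1, h2⟩ := interior_subset hy
  exact (((differentiableAt_dz k (contDiffAt_ofReal (hρ.contDiffAt.of_le two_le))).continuousAt.mul
    (differentiableAt_dzb l (contDiffAt_ofReal (h1.of_le two_le))).continuousAt).mul
      (sm_T h2 k l).continuousAt).continuousWithinAt

theorem stokes (hρ : ContDiff ℝ ∞ ρ) (hc : HasCompactSupport ρ)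
    (h : ∀ y ∈ tsupport ρ, ∀ᶠ x in 𝓝 y, ContDiffAt ℝ ∞ u x ∧ Cl β x) :
    ∫ y, (ρ y : ℂ) * tau (dd u y * β y) = -∫ y, eta u β ρ y := by
  set F : Fin D → Fin D → Cm D → ℂ := fun k l y =>
    (ρ y : ℂ) * (dzb l (fun x => (u x : ℂ)) y * tau (X (k, l) * β y)) with hF
  have z : ∀ k l, ∀ y ∉ tsupport ρ, F k l =ᶠ[𝓝 y] fun _ => 0 := fun k l y hy =>
    (ev_zero hy).mono fun x hx => by simp only [hF, hx, Complex.ofReal_zero, zero_mul]
  have sm : ∀ k l, ContDiff ℝ 1 (F k l) := by
    intro k l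
    rw [contDiff_iff_contDiffAt]
    intro y
    by_cases hy : y ∈ tsupport ρ
    · obtain ⟨h1, h2⟩ := (h y hy).self_of_nhds
      exact (contDiffAt_ofReal (hρ.contDiffAt.of_le one_le')).mul
        ((contDiffAt_dzb l (contDiffAt_ofReal (h1.of_le two_le)) (by norm_num)).mul
          ((sm_T h2 k l).of_le one_le'))
    · exact contDiffAt_const.congr_of_eventuallyEq (z k l y hy)
  have cs : ∀ k l, HasCompactSupport (F k l) := fun k l =>
    HasCompactSupport.intro hc fun y hy => (z k l y hy).self_of_nhds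
  have e : ∀ y, ∑ k, ∑ l, dz k (F k l) y = (ρ y : ℂ) * tau (dd u y * β y) + eta u β ρ y := by
    intro y
    by_cases hy : y ∈ tsupport ρ
    · obtain ⟨h1, h2⟩ := (h y hy).self_of_nhds
      have d1 : DifferentiableAt ℝ (fun x => (ρ x : ℂ)) y :=
        differentiableAt_ofReal (hρ.differentiable (by simp) y)
      have d2 := fun l => differentiableAt_dzb l (contDiffAt_ofReal (h1.of_le two_le))
      have d3 := fun k l => (sm_T h2 k l).differentiableAt (by simp)
      have e1 : ∀ k l, dz k (F k l) y = (ρ y : ℂ) * (cHess u y k l * tau (X (k, l) * β y)) +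
          dz k (fun x => (ρ x : ℂ)) y * dzb l (fun x => (u x : ℂ)) y * tau (X (k, l) * β y) +
          (ρ y : ℂ) * dzb l (fun x => (u x : ℂ)) y * dz k (fun x => tau (X (k, l) * β x)) y := by
        intro k l
        rw [hF, dz_mul k d1 ((d2 l).fun_mul (d3 k l)), dz_mul k (d2 l) (d3 k l), cHess_apply]
        ring
      have e2 : ∑ k, ∑ l, (ρ y : ℂ) * dzb l (fun x => (u x : ℂ)) y *
          dz k (fun x => tau (X (k, l) * β x)) y = 0 := by
        rw [Finset.sum_comm]
        refine Finset.sum_eq_zero fun l _ => ?_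
        have h3 := h2.cl l 1
        simp only [one_mul] at h3
        rw [← Finset.mul_sum, h3, mul_zero]
      simp only [e1, Finset.sum_add_distrib, e2, add_zero, tau_dd, eta, Finset.mul_sum]
    · rw [eta_const u β (ev_zero hy), (ev_zero hy).self_of_nhds]
      simp only [dz_congr _ (z _ _ y hy), dz_const, Finset.sum_const_zero, Complex.ofReal_zero,
        zero_mul, add_zero]
  have i1 : Integrable fun y => ∑ k, ∑ l, dz k (F k l) y :=
    integrable_finset_sum _ fun k _ => integrable_finset_sum _ fun l _ =>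
      (int_dz (sm k l) (cs k l) k).1
  have i2 : Integrable (eta u β ρ) := (eta_cont hρ h).integrable_of_hasCompactSupport
    (HasCompactSupport.intro hc fun y hy => eta_const u β (ev_zero hy))
  have e3 : ∫ y, ∑ k, ∑ l, dz k (F k l) y = 0 := by
    rw [integral_finset_sum _ fun k _ => integrable_finset_sum _ fun l _ =>
      (int_dz (sm k l) (cs k l) k).1]
    refine Finset.sum_eq_zero fun k _ => ?_
    rw [integral_finset_sum _ fun l _ => (int_dz (sm k l) (cs k l) k).1]
    exact Finset.sum_eq_zero fun l _ => (int_dz (sm k l) (cs k l) k).2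
  have e4 : (fun y => (ρ y : ℂ) * tau (dd u y * β y)) =
      fun y => (∑ k, ∑ l, dz k (F k l) y) - eta u β ρ y := by
    funext y
    rw [e, add_sub_cancel_right]
  rw [e4, integral_sub i1 i2, e3, zero_sub]

end

theorem finsum_card {k : ℕ} (p : Fin k → Cm D) {ρ : Cm D → ℝ} {n : Cm D → ℕ}
    (h : ∀ x ∈ tsupport ρ, n x = (Finset.univ.filter fun j => p j = x).card) :
    ∑ᶠ x, (n x : ℝ) * ρ x = ∑ j, ρ (p j) := by
  have e : ∀ x, (n x : ℝ) * ρ x = ∑ j, if p j = x then ρ x else 0 := by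
    intro x
    by_cases hx : x ∈ tsupport ρ
    · rw [h x hx, ← Finset.sum_filter, Finset.sum_const, nsmul_eq_mul]
    · simp [image_eq_zero_of_notMem_tsupport hx]
  simp only [e]
  rw [finsum_sum_comm]
  · refine Finset.sum_congr rfl fun j _ => ?_
    rw [finsum_eq_single _ (p j) fun x hx => if_neg (Ne.symm hx), if_pos rfl]
  · intro j _
    refine (finite_singleton (p j)).subset fun x hx => ?_
    by_contra h1
    exact hx (if_neg (Ne.symm h1))

theorem ev_of_nae {f g : Cm D → ℝ} {y₀ : Cm D} (hf : ∀ᶠ y in 𝓝 y₀, ContinuousAt f y)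
    (hg : ∀ᶠ y in 𝓝 y₀, ContinuousAt g y) (h : ∀ᶠ y in nae y₀, f y = g y) : f =ᶠ[𝓝 y₀] g := by
  obtain ⟨s, hs, t, ht, hst⟩ := mem_inf_iff_superset.1 h
  obtain ⟨O, hO, hOo, hy⟩ := mem_nhds_iff.1 (inter_mem hs (hf.and hg))
  have h1 : f =ᵐ[volume.restrict O] g := by
    rw [EventuallyEq, ae_restrict_iff' hOo.measurableSet]
    filter_upwards [ht] with x hx hxO
    exact hst ⟨(hO hxO).1, hx⟩
  have h2 := Measure.eqOn_open_of_ae_eq h1 hOo
    (fun x hx => (hO hx).2.1.continuousWithinAt) (fun x hx => (hO hx).2.2.continuousWithinAt)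
  filter_upwards [hOo.mem_nhds hy] with x hx using h2 hx

theorem an_real {φ : Cm D → Cm D} {y : Cm D} (h : AnalyticAt ℂ φ y) : DifferentiableAt ℝ φ y :=
  h.differentiableAt.restrictScalars ℝ

/-- **Row KEY.** -/
theorem key_of (hC : CORE) : KEY := by
  intro D ι _ ρ u β N hρ hs hN h1 hloc
  set S : ι → ι → Cm D → ℝ := fun b a y => ∑ᶠ x, (N b a y x : ℝ) * ρ a x with hS
  have dρ : ∀ a y, DifferentiableAt ℝ (ρ a) y := fun a y => (hρ a).1.differentiable (by simp) y
  have core := fun a b => hC D (ρ b) (eta (u a) (β a) (ρ a)) (eta (u b) (β b) (S b a))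
    (tsupport (ρ a)) ∅ (N b a) (hρ b).1.continuous (hρ b).2 measure_empty
    (eta_cont (hρ a).1 (hs a)) (fun x hx => eta_const _ _ (ev_zero hx)) fun y₀ hy₀ => by
      obtain ⟨k, φ, hφ, hc, hn⟩ := hloc b a y₀ hy₀
      refine ⟨k, φ, hφ, hc, ?_⟩
      have e1 : ∀ᶠ y in 𝓝 y₀, S b a y = ∑ j, ρ a (φ j y) :=
        hc.mono fun y hy => finsum_card (fun j => φ j y) hy
      have e2 : ∀ᶠ y in 𝓝 y₀, ∀ j, AnalyticAt ℂ (φ j) y :=
        eventually_all.2 fun j => (hφ j).eventually_analyticAt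
      have e3 : ∀ j, ∀ᶠ y in nae y₀, eta (u b) (β b) (fun x => ρ a (φ j x)) y =
          ((‖(jac (φ j) y).det‖ ^ 2 : ℝ) : ℂ) * eta (u a) (β a) (ρ a) (φ j y) := by
        intro j
        by_cases hj : φ j y₀ ∈ tsupport (ρ a)
        · have c1 := (hφ j).continuousAt.eventually (hs a _ hj)
          have c2 : u b =ᶠ[𝓝 y₀] fun y => u a (φ j y) := by
            refine ev_of_nae ((hs b _ hy₀).mono fun y hy => hy.1.continuousAt) ?_
              ((hn j hj).mono fun y hy => hy.1)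
            filter_upwards [c1, e2] with y h2 h3
            exact ContinuousAt.comp (g := u a) h2.1.continuousAt (h3 j).continuousAt
          filter_upwards [hn j hj, mem_inf_of_left (c1.and (e2.and c2.eventually_nhds))]
            with y h2 h3
          obtain ⟨h4, h5, h6⟩ := h3
          rw [eta_congr _ h6 EventuallyEq.rfl]
          exact eta_comp (h5 j).differentiableAt (h4.1.differentiableAt (by simp)) (dρ a _) h2.2
        · have c1 := (hφ j).continuousAt.eventually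
            ((isClosed_tsupport (ρ a)).isOpen_compl.mem_nhds hj)
          filter_upwards [mem_inf_of_left (c1.and e2)] with y h2
          rw [eta_const _ _ (ev_zero h2.1), mul_zero]
          exact eta_const _ _ ((h2.2 j).continuousAt.eventually (ev_zero h2.1))
      filter_upwards [eventually_all.2 e3, mem_inf_of_left (e1.eventually_nhds.and e2)]
        with y h2 h3 _
      rw [eta_congr _ EventuallyEq.rfl h3.1, eta_sum (f := fun j x => ρ a (φ j x)) _ _ _ fun j _ =>
        (dρ a _).comp y (an_real (h3.2 j))]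
      exact Finset.sum_congr rfl fun j _ => h2 j
  simp only [compl_empty, mem_univ, finsum_true] at core
  have dS : ∀ b a, ∀ y ∈ tsupport (ρ b), DifferentiableAt ℝ (S b a) y := by
    intro b a y hy
    obtain ⟨k, φ, hφ, hc, -⟩ := hloc b a y hy
    have e1 : S b a =ᶠ[𝓝 y] fun y => ∑ j, ρ a (φ j y) :=
      hc.mono fun y hy => finsum_card (fun j => φ j y) hy
    exact (DifferentiableAt.fun_sum fun j _ =>
      (dρ a _).comp y (an_real (hφ j))).congr_of_eventuallyEq e1
  have e1 : ∀ a, ∫ x, eta (u a) (β a) (ρ a) x =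
      ∑ b, ∫ y, (ρ b y : ℂ) * eta (u b) (β b) (S b a) y := by
    intro a
    simp only [fun b => (core a b).2.2]
    rw [← integral_finset_sum _ fun b _ => (core a b).2.1]
    refine integral_congr_ae (Eventually.of_forall fun x => ?_)
    simp only [← Finset.mul_sum, ← Complex.ofReal_sum]
    by_cases hx : x ∈ tsupport (ρ a)
    · have h2 := h1 a x hx
      simp only [hN a] at h2
      rw [h2, Complex.ofReal_one, mul_one]
    · rw [eta_const _ _ (ev_zero hx), zero_mul]
  have e2 : ∀ b, ∑ a, ∫ y, (ρ b y : ℂ) * eta (u b) (β b) (S b a) y = 0 := by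
    intro b
    rw [← integral_finset_sum _ fun a _ => (core a b).1]
    refine integral_eq_zero_of_ae (Eventually.of_forall fun y => ?_)
    simp only [← Finset.mul_sum, Pi.zero_apply]
    by_cases hy : ρ b y = 0
    · rw [hy, Complex.ofReal_zero, zero_mul]
    · rw [← eta_sum _ _ _ fun a _ => dS b a y (subset_tsupport _ hy), eta_const (c := 1), mul_zero]
      filter_upwards [(hρ b).1.continuous.continuousAt.eventually_ne hy] with x hx
      exact h1 b x (subset_tsupport _ hx)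
  simp only [fun a => stokes (hρ a).1 (hρ a).2 (hs a), e1, Finset.sum_neg_distrib]
  rw [Finset.sum_comm]
  simp only [e2, Finset.sum_const_zero, neg_zero]

end Vale.Agent.P269CL
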