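import Vale.Agent.P269CL.Pt
import Vale.Agent.P277Z.Top.PL1

/-!
# P269, block C: the local Poincare-Lelong formula
-/

set_option autoImplicit false
set_option linter.all false

noncomputable section

namespace Vale.Agent.P269CL

open Set Filter MvPolynomial MeasureTheory Vale.Agent.P272.K Vale.Agent.P272.K.C2 Vale.Agent.P269C
open scoped Topology ContDiff

variable {D : ℕ}

/-- `tau` as a linear map -/
def tauL (D : ℕ) : Po D →ₗ[ℂ] ℂ where
  toFun := tau
  map_add' P Q := by
    simp only [tau, coeff_add, mul_add, Finset.sum_add_distrib, add_div]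
  map_smul' c P := by
    simp only [tau, coeff_smul, smul_eq_mul, RingHom.id_apply, ← mul_div_assoc, Finset.mul_sum]
    refine congrArg (· / (Real.pi : ℂ) ^ D) (Finset.sum_congr rfl fun σ _ => ?_)
    ring

theorem tauL_apply (P : Po D) : tauL D P = tau P := rfl

theorem tau_form (β : Po D) (M : Fin D → Fin D → ℂ) :
    tau (β * ∑ i, ∑ j, C (M i j) * X (i, j)) = ∑ i, ∑ j, M i j * tau (β * X (i, j)) := by
  simp only [← tauL_apply, Finset.mul_sum, map_sum]
  refine Finset.sum_congr rfl fun i _ => Finset.sum_congr rfl fun j _ => ?_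
  rw [mul_left_comm, ← smul_eq_C_mul, map_smul, smul_eq_mul]

theorem tau_c1 (β : Po D) {h : Cm D → ℝ} {z : Cm D} (hh : ContDiffAt ℝ 2 h z) (h0 : 0 < h z) :
    tau (β * c1 h z) =
      -∑ i, ∑ j, cHess (fun y => Real.log (h y)) z i j * tau (β * X (i, j)) := by
  rw [c1_eq hh h0, mul_neg, ← tauL_apply, map_neg, tauL_apply]
  exact congrArg Neg.neg (tau_form β fun i j => cHess (fun y => Real.log (h y)) z i j)

theorem tau_mul_sub (β P Q : Po D) : tau (β * (P - Q)) = tau (β * P) - tau (β * Q) := by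
  rw [mul_sub, ← tauL_apply, map_sub, tauL_apply, tauL_apply]

theorem ss_inj (D : ℕ) : Function.Injective fun p : Fin D × Fin D => (p.1.succ, p.2.succ) :=
  fun p q h => Prod.ext (Fin.succ_injective _ (congrArg Prod.fst h))
    (Fin.succ_injective _ (congrArg Prod.snd h))

/-- The restriction of forms to the hyperplane `y 0 = 0`. -/
def res (D : ℕ) : Po (D + 1) →ₐ[ℂ] Po D := killCompl (ss_inj D)

theorem res_ss (i j : Fin D) : res D (X (i.succ, j.succ)) = X (i, j) := by
  have h := killCompl_rename_app (R := ℂ) (ss_inj D) (X (i, j))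
  rwa [rename_X] at h

theorem res_0l (j : Fin (D + 1)) : res D (X (0, j)) = 0 := by
  rw [res, killCompl, aeval_X, dif_neg]
  rintro ⟨p, hp⟩
  exact Fin.succ_ne_zero _ (congrArg Prod.fst hp)

theorem res_0r (i : Fin (D + 1)) : res D (X (i, 0)) = 0 := by
  rw [res, killCompl, aeval_X, dif_neg]
  rintro ⟨p, hp⟩
  exact Fin.succ_ne_zero _ (congrArg Prod.snd hp)

theorem tau_X00 (β : Po (D + 1)) : tau (β * X (0, 0)) = tau (res D β) / Real.pi := by
  unfold tau
  rw [div_div, ← pow_succ]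
  refine congrArg (· / (Real.pi : ℂ) ^ (D + 1)) ?_
  rw [← Equiv.Perm.decomposeFin.symm.sum_comp, Fintype.sum_prod_type, Fin.sum_univ_succ,
    Finset.sum_eq_zero (s := Finset.univ) (f := fun p : Fin D => _), add_zero]
  · refine Finset.sum_congr rfl fun σ _ => ?_
    rw [Equiv.Perm.decomposeFin.symm_sign, if_pos rfl, one_mul, Fin.sum_univ_succ,
      Equiv.Perm.decomposeFin_symm_apply_zero, add_comm (Finsupp.single _ _), coeff_mul_X, res, coeff_killCompl,
      Finsupp.mapDomain_finset_sum]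
    simp [Finsupp.mapDomain_single]
  · intro p _
    refine Finset.sum_eq_zero fun σ _ => ?_
    rw [coeff_mul_X', if_neg, mul_zero]
    rw [Finsupp.mem_support_iff, not_not, Finsupp.finset_sum_apply]
    refine Finset.sum_eq_zero fun k _ => Finsupp.single_eq_of_ne' fun h => ?_
    have h1 : k = 0 := congrArg Prod.fst h
    have h2 := congrArg Prod.snd h
    subst h1
    simp at h2

/-- the coefficients of `β` are continuous on `W` -/
def CC (W : Set (Cm D)) (β : Cm D → Po D) : Prop :=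
  ∀ s, ContinuousOn (fun y => coeff s (β y)) W

section
variable {W K : Set (Cm D)} {β γ : Cm D → Po D}

theorem CC.mul (h : CC W β) (h' : CC W γ) : CC W fun y => β y * γ y := by
  intro s
  simp only [coeff_mul]
  exact continuousOn_finset_sum _ fun x _ => (h _).mul (h' _)

theorem CC.const (P : Po D) : CC W fun _ => P := fun _ => continuousOn_const

theorem CC.add (h : CC W β) (h' : CC W γ) : CC W fun y => β y + γ y := by
  intro s
  simp only [coeff_add]
  exact (h _).add (h' _)

theorem CC.sub (h : CC W β) (h' : CC W γ) : CC W fun y => β y - γ y := by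
  intro s
  simp only [coeff_sub]
  exact (h _).sub (h' _)

theorem CC.tau (h : CC W β) : ContinuousOn (fun y => tau (β y)) W := by
  unfold P269C.tau
  exact (continuousOn_finset_sum _ fun σ _ => continuousOn_const.mul (h _)).div_const _

theorem cont_cHess {h : Cm D → ℝ} (hh : ∀ y ∈ W, ContDiffAt ℝ 2 h y) (i j : Fin D) :
    ContinuousOn (fun y => cHess h y i j) W := fun y hy =>
  (contDiffAt_cHess (m := 0) (hh y hy) (by norm_num) i j).continuousAt.continuousWithinAt

theorem CC.c1 {h : Cm D → ℝ} (hh : ∀ y ∈ W, ContDiffAt ℝ 2 h y ∧ 0 < h y) : CC W (c1 h) := by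
  intro s
  refine ContinuousOn.congr (f := fun y => -∑ i, ∑ j,
    cHess (fun y => Real.log (h y)) y i j * coeff s (X (i, j) : Po D)) ?_ fun y hy => ?_
  · refine (continuousOn_finset_sum _ fun i _ => continuousOn_finset_sum _ fun j _ => ?_).neg
    exact (cont_cHess (fun y hy => (hh y hy).1.log (hh y hy).2.ne') i j).mul continuousOn_const
  · simp only [c1_eq (hh y hy).1 (hh y hy).2, coeff_neg, coeff_sum, coeff_C_mul]

theorem cont_of {E : Type} [TopologicalSpace E] {W K : Set E} (hW : IsOpen W) (hK : IsClosed K)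
    (hKW : K ⊆ W) {f : E → ℂ} (hf : ContinuousOn f W) (h0 : ∀ y ∉ K, f y = 0) : Continuous f := by
  rw [continuous_iff_continuousAt]
  intro y
  by_cases hy : y ∈ W
  · exact hf.continuousAt (hW.mem_nhds hy)
  · have h1 : f =ᶠ[𝓝 y] fun _ => 0 := by
      filter_upwards [hK.isOpen_compl.mem_nhds fun h => hy (hKW h)] with x hx
      exact h0 x hx
    exact h1.continuousAt

theorem integrable_of (hW : IsOpen W) (hK : IsCompact K) (hKW : K ⊆ W) {f : Cm D → ℂ}
    (hf : ContinuousOn f W) (h0 : ∀ y ∉ K, f y = 0) : Integrable f :=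
  (cont_of hW hK.isClosed hKW hf h0).integrable_of_hasCompactSupport
    (HasCompactSupport.intro hK h0)

theorem lim_dom (hW : IsOpen W) (hK : IsCompact K) (hKW : K ⊆ W) {N : Cm D → ℝ}
    (hN : ContinuousOn N W) (hN0 : ∀ y ∈ W, 0 ≤ N y) (hae : ∀ᵐ y, y ∈ W → 0 < N y)
    {b : Cm D → ℂ} (hb : ContinuousOn b W) (hb0 : ∀ y ∉ K, b y = 0) (m : ℕ) :
    (∀ ε > 0, Integrable fun y => ((N y / (N y + ε) : ℝ) : ℂ) ^ m * b y) ∧
    Tendsto (fun ε : ℝ => ∫ y, ((N y / (N y + ε) : ℝ) : ℂ) ^ m * b y) (𝓝[>] 0)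
      (𝓝 (∫ y, b y)) := by
  have hi : ∀ ε > 0, Integrable fun y => ((N y / (N y + ε) : ℝ) : ℂ) ^ m * b y := by
    intro ε hε
    refine integrable_of hW hK hKW (ContinuousOn.mul (ContinuousOn.pow ?_ m) hb)
      fun y hy => by rw [hb0 y hy, mul_zero]
    refine Complex.continuous_ofReal.comp_continuousOn (hN.div (hN.add continuousOn_const) ?_)
    intro y hy
    have := hN0 y hy
    positivity
  refine ⟨hi, tendsto_integral_filter_of_dominated_convergence (fun z => ‖b z‖) ?_ ?_
    (integrable_of hW hK hKW hb hb0).norm ?_⟩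
  · filter_upwards [self_mem_nhdsWithin] with ε hε
    exact (hi ε hε).aestronglyMeasurable
  · filter_upwards [self_mem_nhdsWithin] with ε hε
    have hε' : (0 : ℝ) < ε := hε
    refine Eventually.of_forall fun z => ?_
    by_cases hz : z ∈ W
    · have h1 := hN0 z hz
      rw [norm_mul, norm_pow, Complex.norm_real]
      have h2 : ‖N z / (N z + ε)‖ ≤ 1 := by
        rw [Real.norm_of_nonneg (by positivity), div_le_one (by positivity)]
        linarith
      exact mul_le_of_le_one_left (norm_nonneg _) (pow_le_one₀ (norm_nonneg _) h2)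
    · rw [hb0 z fun h => hz (hKW h), mul_zero]
  · filter_upwards [hae] with z hz
    by_cases hzW : z ∈ W
    · have h0 := hz hzW
      have h1 : Tendsto (fun ε : ℝ => ((N z / (N z + ε) : ℝ) : ℂ) ^ m * b z) (𝓝 0)
          (𝓝 (((N z / (N z + 0) : ℝ) : ℂ) ^ m * b z)) := by
        refine ContinuousAt.tendsto (f := fun ε : ℝ => ((N z / (N z + ε) : ℝ) : ℂ) ^ m * b z) ?_
        refine ContinuousAt.mul (ContinuousAt.pow ?_ m) continuousAt_const
        refine Complex.continuous_ofReal.continuousAt.comp ?_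
        refine ContinuousAt.div (by fun_prop) (by fun_prop) ?_
        simp [h0.ne']
      rw [add_zero, div_self h0.ne', Complex.ofReal_one, one_pow, one_mul] at h1
      exact h1.mono_left nhdsWithin_le_nhds
    · simp only [hb0 z fun h => hzW (hKW h), mul_zero]
      exact tendsto_const_nhds

/-- **Off the divisor** there is no contribution. -/
theorem pl_off (hW : IsOpen W) (hK : IsCompact K) (hKW : K ⊆ W) {θ : Cm D → ℝ}
    (hθ : ∀ y ∈ W, ContDiffAt ℝ 2 θ y ∧ 0 < θ y) {χ : Cm D → ℂ} (hχ : ContinuousOn χ W)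
    (h0 : ∀ y ∉ K, χ y = 0) (hβ : CC W β) :
    Tendsto (fun ε : ℝ => ∫ y, χ y * tau (β y * (c1 θ y - c1 (fun x => θ x + ε) y)))
      (𝓝[>] 0) (𝓝 0) := by
  have hθc : ContinuousOn θ W := fun y hy => (hθ y hy).1.continuousAt.continuousWithinAt
  have hθc' : ContinuousOn (fun y => (θ y : ℂ)) W := Complex.continuous_ofReal.comp_continuousOn hθc
  have hne : ∀ y ∈ W, (θ y : ℂ) ≠ 0 := fun y hy => Complex.ofReal_ne_zero.2 (hθ y hy).2.ne'
  have hT : ∀ i j, ContinuousOn (fun y => tau (β y * X (i, j))) W :=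
    fun i j => (hβ.mul (CC.const _)).tau
  set b1 : Cm D → ℂ := fun y =>
    χ y * ((θ y : ℂ)⁻¹ * ∑ i, ∑ j, cHess θ y i j * tau (β y * X (i, j))) with hb1
  set b2 : Cm D → ℂ := fun y => χ y * (((θ y : ℂ) ^ 2)⁻¹ * ∑ i, ∑ j,
    dz i (fun y => (θ y : ℂ)) y * dzb j (fun y => (θ y : ℂ)) y * tau (β y * X (i, j))) with hb2
  have c1' : ContinuousOn b1 W := hχ.mul ((hθc'.inv₀ hne).mul (continuousOn_finset_sum _
    fun i _ => continuousOn_finset_sum _ fun j _ =>
      (cont_cHess (fun y hy => (hθ y hy).1) i j).mul (hT i j)))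
  have c2' : ContinuousOn b2 W := by
    refine hχ.mul (((hθc'.pow 2).inv₀ fun y hy => pow_ne_zero 2 (hne y hy)).mul
      (continuousOn_finset_sum _ fun i _ => continuousOn_finset_sum _ fun j _ =>
        ContinuousOn.mul (fun y hy => ?_) (hT i j)))
    have h1 := contDiffAt_ofReal (hθ y hy).1
    exact ((differentiableAt_dz i h1).continuousAt.mul
      (differentiableAt_dzb j h1).continuousAt).continuousWithinAt
  have z1 : ∀ y ∉ K, b1 y = 0 := fun y hy => by simp only [hb1, h0 y hy, zero_mul]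
  have z2 : ∀ y ∉ K, b2 y = 0 := fun y hy => by simp only [hb2, h0 y hy, zero_mul]
  have hae : ∀ᵐ y, y ∈ W → 0 < θ y := Eventually.of_forall fun y hy => (hθ y hy).2
  obtain ⟨i1, l1⟩ := lim_dom hW hK hKW hθc (fun y hy => (hθ y hy).2.le) hae c1' z1 1
  obtain ⟨i2, l2⟩ := lim_dom hW hK hKW hθc (fun y hy => (hθ y hy).2.le) hae c2' z2 2
  have j1 := integrable_of hW hK hKW c1' z1
  have j2 := integrable_of hW hK hKW c2' z2
  have key := (l1.sub l2).sub_const ((∫ y, b1 y) - ∫ y, b2 y)
  rw [sub_self] at key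
  refine key.congr' ?_
  filter_upwards [self_mem_nhdsWithin] with ε hε
  have hε' : (0 : ℝ) < ε := hε
  rw [← integral_sub (i1 ε hε) (i2 ε hε), ← integral_sub j1 j2]
  refine (integral_sub ((i1 ε hε).sub (i2 ε hε)) (j1.sub j2)).symm.trans ?_
  refine integral_congr_ae (Eventually.of_forall fun y => ?_)
  by_cases hy : y ∈ W
  · obtain ⟨h1, h2⟩ := hθ y hy
    have h3 : ContDiffAt ℝ 2 (fun x => θ x + ε) y := h1.add contDiffAt_const
    have h4 : 0 < θ y + ε := by positivity
    have hd := differentiableAt_ofReal (h1.differentiableAt (by norm_num))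
    have e0 : (fun x => ((θ x + ε : ℝ) : ℂ)) = fun x => (θ x : ℂ) + ε := by
      funext x
      push_cast
      rfl
    have e1 : ∀ i, dz i (fun x => ((θ x + ε : ℝ) : ℂ)) y = dz i (fun x => (θ x : ℂ)) y := by
      intro i
      rw [e0, dz_add i hd (differentiableAt_const _), dz_const, add_zero]
    have e2 : ∀ i, dzb i (fun x => ((θ x + ε : ℝ) : ℂ)) y = dzb i (fun x => (θ x : ℂ)) y := by
      intro i
      rw [e0, dzb_add i hd (differentiableAt_const _), dzb_const, add_zero]
    have e3 : cHess (fun x => θ x + ε) y = cHess θ y := by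
      rw [cHess_add h1 contDiffAt_const, cHess_const, add_zero]
    have h5 : (θ y : ℂ) + ε ≠ 0 := by
      have := Complex.ofReal_ne_zero.2 h4.ne'
      push_cast at this
      exact this
    have h6 := hne y hy
    simp only [tau_mul_sub, tau_c1 _ h1 h2, tau_c1 _ h3 h4, cHess_log h1 h2, cHess_log h3 h4, e1,
      e2, e3, hb1, hb2, Pi.sub_apply, sub_mul, Finset.sum_sub_distrib, mul_assoc,
      ← Finset.mul_sum]
    push_cast
    field_simp
    ring
  · have h1 := h0 y fun h => hy (hKW h)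
    simp [hb1, hb2, h1]

end

theorem integral_cons (f : Cm (D + 1) → ℂ) :
    ∫ y, f y = ∫ p : ℂ × Cm D, f (Fin.cons p.1 p.2) := by
  have h := (volume_preserving_piFinSuccAbove (fun _ : Fin (D + 1) => ℂ) 0).symm
  have h2 := h.integral_comp' (g := f)
  rw [← h2]
  refine integral_congr_ae (Eventually.of_forall fun p => ?_)
  simp only [MeasurableEquiv.piFinSuccAbove_symm_apply, Fin.insertNthEquiv, Equiv.coe_fn_mk,
    Fin.insertNth_zero']

/-- **The local Poincare-Lelong formula** for the divisor `y 0 = 0`. -/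
theorem pl {W K : Set (Cm (D + 1))} (hW : IsOpen W) (hK : IsCompact K) (hKW : K ⊆ W)
    {θ : Cm (D + 1) → ℝ} (hθ : ∀ y ∈ W, ContDiffAt ℝ 2 θ y ∧ 0 < θ y) {χ : Cm (D + 1) → ℂ}
    (hχ : ContinuousOn χ W) (h0 : ∀ y ∉ K, χ y = 0) {β : Cm (D + 1) → Po (D + 1)} (hβ : CC W β) :
    Tendsto (fun ε : ℝ => ∫ y, χ y *
        tau (β y * (c1 θ y - c1 (fun x => ‖x 0‖ ^ 2 * θ x + ε) y))) (𝓝[>] 0)
      (𝓝 (∫ x : Cm D, χ (Fin.cons 0 x) * tau (res D (β (Fin.cons 0 x))))) := by
  have hθc : ContinuousOn θ W := fun y hy => (hθ y hy).1.continuousAt.continuousWithinAt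
  have hθc' : ContinuousOn (fun y => (θ y : ℂ)) W := Complex.continuous_ofReal.comp_continuousOn hθc
  have hne : ∀ y ∈ W, (θ y : ℂ) ≠ 0 := fun y hy => Complex.ofReal_ne_zero.2 (hθ y hy).2.ne'
  have hT : ∀ i j, ContinuousOn (fun y => tau (β y * X (i, j))) W :=
    fun i j => (hβ.mul (CC.const _)).tau
  set b : Cm (D + 1) → ℂ := fun y => χ y *
    ∑ i, ∑ j, cHess (fun x => Real.log (θ x)) y i j * tau (β y * X (i, j)) with hb
  set H : Cm (D + 1) → ℂ := fun y => χ y *
    ∑ i, ∑ j, mu 0 θ i y * nu 0 θ j y / (θ y : ℂ) ^ 2 * tau (β y * X (i, j)) with hH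
  have cb : ContinuousOn b W := hχ.mul (continuousOn_finset_sum _
    fun i _ => continuousOn_finset_sum _ fun j _ =>
      (cont_cHess (fun y hy => (hθ y hy).1.log (hθ y hy).2.ne') i j).mul (hT i j))
  have c0 : Continuous fun y : Cm (D + 1) => y 0 := continuous_apply 0
  have cH : ContinuousOn H W := by
    refine hχ.mul (continuousOn_finset_sum _ fun i _ => continuousOn_finset_sum _ fun j _ =>
      ContinuousOn.mul (ContinuousOn.div (ContinuousOn.mul ?_ ?_) (hθc'.pow 2)
        fun y hy => pow_ne_zero 2 (hne y hy)) (hT i j))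
    · refine (continuousOn_const.mul hθc').add (c0.continuousOn.mul fun y hy => ?_)
      exact (differentiableAt_dz i (contDiffAt_ofReal (hθ y hy).1)).continuousAt.continuousWithinAt
    · refine (continuousOn_const.mul hθc').add
        ((Complex.continuous_conj.comp c0).continuousOn.mul fun y hy => ?_)
      exact (differentiableAt_dzb j (contDiffAt_ofReal (hθ y hy).1)).continuousAt.continuousWithinAt
  have zb : ∀ y ∉ K, b y = 0 := fun y hy => by simp only [hb, h0 y hy, zero_mul]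
  have zH : ∀ y ∉ K, H y = 0 := fun y hy => by simp only [hH, h0 y hy, zero_mul]
  have cN : ContinuousOn (fun y : Cm (D + 1) => ‖y 0‖ ^ 2 * θ y) W :=
    (c0.norm.pow 2).continuousOn.mul hθc
  have hN0 : ∀ y ∈ W, 0 ≤ ‖y 0‖ ^ 2 * θ y := fun y hy => by
    have := (hθ y hy).2
    positivity
  have hae : ∀ᵐ y : Cm (D + 1), y ∈ W → 0 < ‖y 0‖ ^ 2 * θ y := by
    have h1 : ∀ᵐ y : Cm (D + 1), y 0 ≠ 0 :=
      Measure.ae_eval_ne (fun _ : Fin (D + 1) => (volume : Measure ℂ)) 0 (0 : ℂ)
    filter_upwards [h1] with y h2 hy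
    exact mul_pos (pow_pos (norm_pos_iff.2 h2) 2) (hθ y hy).2
  obtain ⟨i1, l1⟩ := lim_dom hW hK hKW cN hN0 hae cb zb 1
  have j1 := integrable_of hW hK hKW cb zb
  let e : (ℂ × Cm D) ≃L[ℂ] Cm (D + 1) := Fin.consEquivL ℂ (fun _ : Fin (D + 1) => ℂ)
  have hKe : IsCompact (e ⁻¹' K) := e.toHomeomorph.isCompact_preimage.2 hK
  have hs : Function.support (fun p => H (e p)) ⊆ e ⁻¹' K :=
    fun p hp => by_contra fun h => hp (zH _ h)
  have l2 := P277Z.Top.PL.tendsto_kernel (H := fun p => H (e p)) (θ := fun p => θ (e p))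
    (W := e ⁻¹' W) (hW.preimage e.continuous)
    ((cont_of hW hK.isClosed hKW cH zH).comp e.continuous)
    (HasCompactSupport.intro hKe fun p hp => zH _ hp)
    ((closure_minimal hs hKe.isClosed).trans
      (preimage_mono hKW))
    (hθc.comp e.continuous.continuousOn fun p hp => hp) fun p hp => (hθ _ hp).2
  have hv : (Real.pi : ℂ) * ∫ w : Cm D, H (e (0, w)) =
      ∫ x : Cm D, χ (Fin.cons 0 x) * tau (res D (β (Fin.cons 0 x))) := by
    rw [← integral_const_mul]
    refine integral_congr_ae (Eventually.of_forall fun w => ?_)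
    show (Real.pi : ℂ) * H (Fin.cons 0 w) = χ (Fin.cons 0 w) * tau (res D (β (Fin.cons 0 w)))
    by_cases hw : (Fin.cons 0 w : Cm (D + 1)) ∈ W
    · have h1 := hne _ hw
      have h2 : (Real.pi : ℂ) ≠ 0 := Complex.ofReal_ne_zero.2 Real.pi_ne_zero
      simp only [hH, mu, nu, Fin.cons_zero, map_zero, zero_mul, add_zero, Fin.sum_univ_succ,
        Fin.succ_ne_zero, if_false, if_true, mul_zero, zero_div, Finset.sum_const_zero, tau_X00]
      field_simp
    · simp [hH, h0 _ fun h => hw (hKW h)]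
  rw [hv] at l2
  have key := (l1.sub_const (∫ y, b y)).add l2
  rw [sub_self, zero_add] at key
  refine key.congr' ?_
  filter_upwards [self_mem_nhdsWithin] with ε hε
  have hε' : (0 : ℝ) < ε := hε
  have j2 : Integrable fun y : Cm (D + 1) =>
      ((ε * θ y / (‖y 0‖ ^ 2 * θ y + ε) ^ 2 : ℝ) : ℂ) * H y := by
    refine integrable_of hW hK hKW (ContinuousOn.mul ?_ cH) fun y hy => by rw [zH y hy, mul_zero]
    refine Complex.continuous_ofReal.comp_continuousOn ((continuousOn_const.mul hθc).div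
      ((cN.add continuousOn_const).pow 2) fun y hy => ?_)
    have := hN0 y hy
    positivity
  have e1 := integral_cons fun y : Cm (D + 1) =>
    ((ε * θ y / (‖y 0‖ ^ 2 * θ y + ε) ^ 2 : ℝ) : ℂ) * H y
  have e2 : ∫ p : ℂ × Cm D, ((ε * θ (e p) / (‖p.1‖ ^ 2 * θ (e p) + ε) ^ 2 : ℝ) : ℂ) * H (e p) =
      ∫ y : Cm (D + 1), ((ε * θ y / (‖y 0‖ ^ 2 * θ y + ε) ^ 2 : ℝ) : ℂ) * H y := e1.symm
  rw [e2, ← integral_sub (i1 ε hε) j1]
  refine (integral_add ((i1 ε hε).sub j1) j2).symm.trans ?_
  refine integral_congr_ae (Eventually.of_forall fun y => ?_)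
  by_cases hy : y ∈ W
  · obtain ⟨h1, h2⟩ := hθ y hy
    have h4 : 0 < ‖y 0‖ ^ 2 * θ y + ε := by positivity
    simp only [tau_mul_sub, tau_c1 _ h1 h2, tau_c1 _ (cd_u 0 h1 ε) h4, cHess_eps 0 h1 h2 hε', hb,
      hH, Pi.sub_apply, add_mul, Finset.sum_add_distrib, mul_assoc, ← Finset.mul_sum]
    ring
  · have h1 := h0 y fun h => hy (hKW h)
    simp [hb, hH, h1]

end Vale.Agent.P269CL
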