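import Vale.Agent.P269HS.Spec
import Vale.Agent.P269HW.Cut

/-!
# P269, block H: the row PTW
-/

open scoped Manifold ContDiff Topology Matrix
open Filter MvPolynomial
open Vale.Agent.P272.K
open Vale.Agent.P269H (CI)
open Vale.Agent.P269HK Vale.Agent.P269HP Vale.Agent.P269HN Vale.Agent.P269HS

noncomputable section

namespace Vale.Agent.P269CL

theorem dz_hol {n : ℕ} {f : Cm n → ℂ} {z : Cm n} (h : DifferentiableAt ℂ f z) (j : Fin n) :
    dz j f z = fderiv ℂ f z (Pi.single j 1) := by
  have e : (Pi.single j Complex.I : Cm n) = Complex.I • (Pi.single j 1 : Cm n) := by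
    rw [← Pi.single_smul, smul_eq_mul, mul_one]
  rw [dz, h.fderiv_restrictScalars ℝ]
  simp only [ContinuousLinearMap.coe_restrictScalars', e, map_smul, smul_eq_mul]
  linear_combination (-(fderiv ℂ f z (Pi.single j 1)) / 2) * Complex.I_mul_I

theorem sum_single {n N : ℕ} (A : Cm n →L[ℂ] (Fin N → ℂ)) (t : Cm n) (i : Fin N) :
    ∑ j, t j * A (Pi.single j 1) i = A t i := by
  conv_rhs => rw [pi_eq_sum_univ' t]
  simp only [map_sum, map_smul, Finset.sum_apply, Pi.smul_apply, smul_eq_mul]

theorem yy_x {N : ℕ} {x : Fin N → ℂ} {κ : Fin N} (h : x κ ≠ 0) :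
    ∑ i, star (x i) / (∑ l, x l * star (x l)) * x i = 1 := by
  have h1 : (∑ l, x l * star (x l)) = ((∑ l, Complex.normSq (x l) : ℝ) : ℂ) := by
    push_cast
    exact Finset.sum_congr rfl fun l _ => Complex.mul_conj _
  have h2 : 0 < ∑ l, Complex.normSq (x l) :=
    Finset.sum_pos' (fun l _ => Complex.normSq_nonneg _)
      ⟨κ, Finset.mem_univ _, Complex.normSq_pos.2 h⟩
  have h3 : (∑ l, x l * star (x l)) ≠ 0 := by
    rw [h1]
    exact Complex.ofReal_ne_zero.2 h2.ne'
  simp only [div_mul_eq_mul_div, ← Finset.sum_div, mul_comm (star _)]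
  exact div_self h3

/-- **Row PTW.** -/
theorem ptw (hL : LOC) : PTW := by
  intro r c M _ _ _ X e y he
  obtain ⟨κ, hκ⟩ := (hc X).ne y
  have hκ' : (X.pt y).rep κ ≠ 0 := hκ
  set x := (X.pt y).rep with hx
  have hF := (lf_an X he hκ').differentiableAt
  set A := fderiv ℂ (lf X e κ) (e y) with hA
  have hy : e.symm (e y) = y := e.left_inv he.2
  have hsl : ∀ i, sl (hc X) e κ i = fun z => lf X e κ z i := fun i => funext fun z =>
    div_eq_inv_mul _ _
  have hd : ∀ i j, dz j (sl (hc X) e κ i) (e y) = A (Pi.single j 1) i := by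
    intro i j
    rw [hsl, dz_hol (differentiableAt_pi.1 hF i), fderiv_apply hF]
    rfl
  set l : Fin r → ℂ := fun j => lm (hc X) e κ j (e y) with hl
  have hl' : ∀ j, l j = ∑ k, x κ * yy (hc X) y k * A (Pi.single j 1) k := by
    intro j
    simp only [hl, lm, hd, hy]
    rfl
  have hT : ∀ i j, Θ (hc X) e y i j = x κ * A (Pi.single j 1) i - x i * l j := by
    intro i j
    rw [(hL r _ M (hc X) e y κ he hκ).2 i j, hd]
    simp only [sl, hy, hc_x, ← hx, hl]
    field_simp
  have y1 : ∑ i, yy (hc X) y i * x i = 1 := yy_x hκ'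
  have z0 : ∀ m w, eval (X.pt w).rep (X.f m) = 0 := fun m w => (X.rng _).1 ⟨w, rfl⟩ m
  have a1 : ∀ m, ∑ i, aa X m y i * x i = 0 := by
    intro m
    have h1 := congrArg (eval x) (X.hom m).sum_X_mul_pderiv
    simp only [map_sum, map_mul, eval_X, map_nsmul, hx, z0, smul_zero] at h1
    rw [← h1]
    exact Finset.sum_congr rfl fun i _ => mul_comm _ _
  have a2 : ∀ m v, ∑ i, aa X m y i * A v i = 0 := by
    intro m v
    have h1 := (P269HW.fd_eval (X.f m) (lf X e κ (e y))).comp (e y) hF.hasFDerivAt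
    have h2 : ((fun z => eval z (X.f m)) ∘ lf X e κ) = fun _ => 0 := by
      funext z
      show eval (lf X e κ z) (X.f m) = 0
      rw [lf, P269HW.ev_smul (X.hom m), z0, mul_zero]
    rw [h2] at h1
    have h3 := DFunLike.congr_fun (h1.unique (hasFDerivAt_const (0 : ℂ) (e y))) v
    have h4 : ∀ i, eval (lf X e κ (e y)) (pderiv i (X.f m)) =
        (x κ)⁻¹ ^ (X.dg m - 1) * aa X m y i := by
      intro i
      rw [lf, hy, P269HW.ev_smul ((X.hom m).pderiv (i := i))]
      rfl
    simp only [h4, ContinuousLinearMap.comp_apply, ContinuousLinearMap.sum_apply,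
      ContinuousLinearMap.smul_apply, ContinuousLinearMap.proj_apply, smul_eq_mul, mul_assoc,
      ← Finset.mul_sum, ContinuousLinearMap.zero_apply] at h3
    exact (mul_eq_zero.1 h3).resolve_left (pow_ne_zero _ (inv_ne_zero hκ'))
  have k0 : ∀ v, A v κ = 0 := by
    intro v
    have h1 : (fun z => lf X e κ z κ) =ᶠ[𝓝 (e y)] fun _ => 1 :=
      (ev_ne X he hκ').mono fun z hz => inv_mul_cancel₀ hz
    have h2 := h1.fderiv_eq (𝕜 := ℂ)
    rw [fderiv_apply hF, fderiv_fun_const] at h2
    exact DFunLike.congr_fun h2 v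
  have p1 : ∀ j, ∑ i, yy (hc X) y i * Θ (hc X) e y i j = 0 := by
    intro j
    simp only [hT, mul_sub, Finset.sum_sub_distrib, ← mul_assoc, ← Finset.sum_mul, y1, one_mul]
    rw [hl', sub_eq_zero]
    exact Finset.sum_congr rfl fun i _ => by ring
  have p2 : ∀ m j, ∑ i, aa X m y i * Θ (hc X) e y i j = 0 := by
    intro m j
    simp only [hT, mul_sub, Finset.sum_sub_distrib, ← mul_assoc, ← Finset.sum_mul, a1, zero_mul,
      sub_zero]
    rw [← mul_zero (x κ), ← a2 m (Pi.single j 1), Finset.mul_sum]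
    exact Finset.sum_congr rfl fun i _ => by ring
  have p3 : ∀ t : Fin r → ℂ, (∀ i, ∑ j, t j * Θ (hc X) e y i j = 0) → t = 0 := by
    intro t ht
    have h1 : ∀ i, x κ * A t i - x i * ∑ j, t j * l j = 0 := by
      intro i
      rw [← ht i, ← sum_single, Finset.mul_sum, Finset.mul_sum, ← Finset.sum_sub_distrib]
      exact Finset.sum_congr rfl fun j _ => by rw [hT]; ring
    have h2 : ∑ j, t j * l j = 0 := by
      have h3 := h1 κ
      rw [k0, mul_zero, zero_sub, neg_eq_zero] at h3
      exact (mul_eq_zero.1 h3).resolve_left hκ'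
    refine lf_inj X he hκ' (funext fun i => ?_)
    have h3 := h1 i
    rw [h2, mul_zero, sub_zero] at h3
    rw [map_zero]
    exact (mul_eq_zero.1 h3).resolve_left hκ'
  refine ⟨p1, p2, p3, fun v hv ha => ?_⟩
  let B : Matrix (Fin c) (Fin (r + c + 1)) ℂ := Matrix.of fun m i => aa X m y i
  let T : (ℂ × (Fin r → ℂ)) →ₗ[ℂ] (Fin (r + c + 1) → ℂ) :=
    (LinearMap.toSpanSingleton ℂ _ x).coprod
      (Matrix.of fun i j => Θ (hc X) e y i j).mulVecLin
  have hTa : ∀ p i, T p i = p.1 * x i + ∑ j, p.2 j * Θ (hc X) e y i j := by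
    intro p i
    simp [T, Matrix.mulVec, dotProduct, mul_comm]
  have hTy : ∀ p, ∑ i, yy (hc X) y i * T p i = p.1 := by
    intro p
    simp only [hTa, mul_add, Finset.sum_add_distrib, Finset.mul_sum]
    rw [Finset.sum_comm]
    simp only [mul_left_comm (yy (hc X) y _), ← Finset.mul_sum, p1, y1, mul_zero, mul_one,
      Finset.sum_const_zero, add_zero]
  have hinj : Function.Injective T := by
    rw [injective_iff_map_eq_zero]
    intro p hp
    have h1 : p.1 = 0 := by
      rw [← hTy p, hp]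
      simp
    refine Prod.ext h1 (p3 _ fun i => ?_)
    have h2 := hTa p i
    rw [hp, h1, zero_mul, zero_add] at h2
    exact h2.symm
  have hle : LinearMap.range T ≤ LinearMap.ker B.mulVecLin := by
    rintro _ ⟨p, rfl⟩
    funext m
    show ∑ i, aa X m y i * T p i = 0
    simp only [hTa, mul_add, Finset.sum_add_distrib, Finset.mul_sum]
    rw [Finset.sum_comm]
    simp only [mul_left_comm (aa X m y _), ← Finset.mul_sum, p2, a1, mul_zero,
      Finset.sum_const_zero, add_zero]
  have hr : B.rank = c := by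
    have h1 : LinearIndependent ℂ B.row := X.ind y
    simpa using h1.rank_matrix
  have h5 := LinearMap.finrank_range_add_finrank_ker B.mulVecLin
  have h6 : Module.finrank ℂ (LinearMap.range T) = 1 + r := by
    rw [LinearMap.finrank_range_of_inj hinj]
    simp
  have h7 : LinearMap.range T = LinearMap.ker B.mulVecLin := by
    refine Submodule.eq_of_le_of_finrank_eq hle ?_
    have h8 : Module.finrank ℂ (LinearMap.range B.mulVecLin) = c := hr
    rw [h8, Module.finrank_fin_fun] at h5
    omega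
  have h9 : v ∈ LinearMap.range T := by
    rw [h7]
    funext m
    exact ha m
  obtain ⟨p, rfl⟩ := h9
  rw [hTy] at hv
  exact ⟨p.2, fun i => by rw [hTa, hv, zero_mul, zero_add]⟩

end Vale.Agent.P269CL
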