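import Vale.Agent.P269CL.Key
import Vale.Agent.P269CW.Spec2

/-!
# P269, block C: the row WGT
-/

set_option autoImplicit false
set_option linter.all false

noncomputable section

namespace Vale.Agent.P269CL

open Set Filter Vale.Agent.P272.K Vale.Agent.P269CW
open scoped Topology Classical

theorem root_sum {n : ℕ} (hn : n ≠ 0) (k : ℕ) {c : ℂ} (hc : c ≠ 0) (d : ℂ) {w : Cm 1 → ℝ} {v : ℝ}
    (hw : ∀ s : ℂ, s ≠ 0 → 1 = s ^ n * c → w (fun _ => s ^ k * d) = v) :
    ∑ᶠ t : Cm 1, ({s : ℂ | s ≠ 0 ∧ t 0 = s ^ k * d ∧ 1 = s ^ n * c}.ncard : ℝ) * w t = n * v := by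
  obtain ⟨s₀, hs₀⟩ := IsAlgClosed.exists_pow_nat_eq c⁻¹ (Nat.pos_of_ne_zero hn)
  have hζ := Complex.isPrimitiveRoot_exp n hn
  set ζ := Complex.exp (2 * Real.pi * Complex.I / n) with hζd
  have h0 : s₀ ≠ 0 := by
    rintro rfl
    rw [zero_pow hn] at hs₀
    exact inv_ne_zero hc hs₀.symm
  have hz : ζ ≠ 0 := hζ.ne_zero hn
  have hr : ∀ j : Fin n, 1 = (s₀ * ζ ^ (j : ℕ)) ^ n * c := by
    intro j
    rw [mul_pow, ← pow_mul, mul_comm (j : ℕ) n, pow_mul, hζ.pow_eq_one, one_pow, mul_one, hs₀,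
      inv_mul_cancel₀ hc]
  have hi : Function.Injective fun j : Fin n => s₀ * ζ ^ (j : ℕ) := fun i j h =>
    Fin.ext (hζ.pow_inj i.2 j.2 (mul_left_cancel₀ h0 h))
  rw [finsum_card (fun (j : Fin n) (_ : Fin 1) => (s₀ * ζ ^ (j : ℕ)) ^ k * d)]
  · rw [Finset.sum_congr rfl fun j _ => hw _ (mul_ne_zero h0 (pow_ne_zero _ hz)) (hr j)]
    simp
  · intro t _
    rw [← Set.ncard_coe_finset, ← Set.ncard_image_of_injective _ hi]
    refine congrArg Set.ncard (Set.ext fun s => ⟨?_, ?_⟩)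
    · rintro ⟨h1, h2, h3⟩
      have h4 : (s / s₀) ^ n = 1 := by
        rw [div_pow, hs₀, div_inv_eq_mul, ← h3]
      haveI : NeZero n := ⟨hn⟩
      obtain ⟨i, hi', he⟩ := hζ.eq_pow_of_pow_eq_one h4
      have h5 : s₀ * ζ ^ i = s := by
        rw [he, mul_div_cancel₀ _ h0]
      refine ⟨⟨i, hi'⟩, ?_, h5⟩
      simp only [Finset.coe_filter, Finset.mem_univ, true_and, mem_setOf_eq, h5]
      funext x
      rw [Subsingleton.elim x 0, h2]
    · rintro ⟨j, hj, rfl⟩
      simp only [Finset.coe_filter, Finset.mem_univ, true_and, mem_setOf_eq] at hj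
      exact ⟨mul_ne_zero h0 (pow_ne_zero _ hz), (congrFun hj 0).symm, hr j⟩

theorem ph_scal (R : ℝ) {s : ℂ} (hs : s ≠ 0) (x y : ℂ) :
    ph R (s ^ 4 * x) (s ^ 6 * y) = ph R x y := by
  have h : ‖s‖ ^ 24 ≠ 0 := pow_ne_zero _ (norm_ne_zero_iff.2 hs)
  unfold ph
  rw [← mul_div_mul_left (2 * (R * ‖y‖ ^ 4) - ‖x‖ ^ 6) _ h]
  simp only [norm_mul, norm_pow]
  congr 2 <;> ring

theorem far_lt {t : Cm 1} {M : ℝ} (hM : 0 ≤ M) (h : t ∉ Metric.closedBall (0 : Cm 1) M) :
    M < ‖t 0‖ := by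
  by_contra h1
  refine h (mem_closedBall_zero_iff.2 ((pi_norm_le_iff_of_nonneg hM).2 fun i => ?_))
  rw [Subsingleton.elim i 0]
  exact not_lt.1 h1

/-- **Row WGT.** -/
theorem wgt : WGT := by
  intro R hR
  have c0 : Continuous fun t : Cm 1 => t 0 := continuous_apply 0
  refine ⟨⟨?_, ?_⟩, ⟨?_, ?_⟩, fun a ha => ?_⟩
  · refine (Real.smoothTransition.continuous.comp (Continuous.div (by fun_prop) (by fun_prop)
      fun t => ?_)).div_const _
    rw [norm_one]
    positivity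
  · refine HasCompactSupport.intro (isCompact_closedBall 0 (1 + 2 * R)) fun t ht => ?_
    have h1 := far_lt (by positivity) ht
    have h2 : ‖t 0‖ ≤ ‖t 0‖ ^ 6 := le_self_pow₀ (by linarith) (by norm_num)
    rw [w1, ph, Real.smoothTransition.zero_of_nonpos, zero_div]
    refine div_nonpos_of_nonpos_of_nonneg ?_ (by positivity)
    rw [norm_one, one_pow]
    linarith
  · refine (continuous_const.sub (Real.smoothTransition.continuous.comp
      (Continuous.div (by fun_prop) (by fun_prop) fun t => ?_))).div_const _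
    rw [norm_one]
    positivity
  · refine HasCompactSupport.intro (isCompact_closedBall 0 (1 + 2 / R)) fun t ht => ?_
    have h0 : 0 < 2 / R := by positivity
    have h1 := far_lt (by positivity) ht
    have h2 : ‖t 0‖ ≤ ‖t 0‖ ^ 4 := le_self_pow₀ (by linarith) (by norm_num)
    have h3 : 2 ≤ R * ‖t 0‖ ^ 4 := by
      have h4 : 2 / R ≤ ‖t 0‖ ^ 4 := by linarith
      rwa [div_le_iff₀' hR] at h4
    rw [w2, ph, Real.smoothTransition.one_of_one_le, sub_self, zero_div]
    rw [norm_one, one_pow, le_div_iff₀ (by positivity)]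
    linarith
  · have e1 : (∑ᶠ t : Cm 1, ({s : ℂ | s ≠ 0 ∧ t 0 = s ^ 4 * a 0 ∧ 1 = s ^ 6 * a 1}.ncard : ℝ) *
        w1 R t) = ph R (a 0) (a 1) := by
      by_cases h1 : a 1 = 0
      · have h0 : a 0 ≠ 0 := fun h0 => ha (funext fun i => by fin_cases i <;> assumption)
        have h2 : 0 < ‖a 0‖ ^ 6 := pow_pos (norm_pos_iff.2 h0) 6
        rw [ph, Real.smoothTransition.zero_of_nonpos]
        · simp [h1]
        · refine div_nonpos_of_nonpos_of_nonneg ?_ (by positivity)
          simp [h1]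
      · rw [root_sum (by norm_num) 4 h1 (a 0) (v := ph R (a 0) (a 1) / 6)]
        · push_cast
          ring
        · intro s hs h2
          rw [w1, h2, ph_scal R hs]
    have e2 : (∑ᶠ t : Cm 1, ({s : ℂ | s ≠ 0 ∧ 1 = s ^ 4 * a 0 ∧ t 0 = s ^ 6 * a 1}.ncard : ℝ) *
        w2 R t) = 1 - ph R (a 0) (a 1) := by
      by_cases h0 : a 0 = 0
      · have h1 : a 1 ≠ 0 := fun h1 => ha (funext fun i => by fin_cases i <;> assumption)
        have h2 : 0 < ‖a 1‖ ^ 4 := pow_pos (norm_pos_iff.2 h1) 4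
        rw [ph, Real.smoothTransition.one_of_one_le]
        · simp [h0]
        · rw [le_div_iff₀ (by positivity), h0]
          have := mul_pos hR h2
          simp only [norm_zero, ne_eq, OfNat.ofNat_ne_zero, not_false_eq_true, zero_pow]
          linarith
      · simp only [and_comm (a := (1 : ℂ) = _)]
        rw [root_sum (by norm_num) 6 h0 (a 1) (v := (1 - ph R (a 0) (a 1)) / 4)]
        · push_cast
          ring
        · intro s hs h2
          rw [w2, h2, ph_scal R hs]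
    rw [e1, e2, add_sub_cancel]

end Vale.Agent.P269CL
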